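import Vale.Agent.P203.Morse.Cells

/-!
# P203, block MORSE: the main theorem
-/

namespace Vale.Agent.P203.Morse

open Finset

variable {S A : Type} [Fintype S] [DecidableEq S] [Group A]

section Spherical

variable {D : Data S A} {G : GoodTheory D} {K : Key D}

/-- The positive vector, extended by zero. -/
theorem exists_pos {U : Finset S} (hU : D.Sph U) :
    ∃ w : S → ℝ, (∀ t ∈ U, 0 < w t) ∧ (∀ t ∉ U, w t = 0) ∧
      ∀ r ∈ U, ∑ t ∈ univ.erase r, D.c r t * w t < 2 * w r := by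
  obtain ⟨w, hw1, hw2⟩ := D.posVec U hU
  refine ⟨fun t => if t ∈ U then w t else 0, fun t ht => by simp [ht, hw1 t ht],
    fun t ht => by simp [ht], fun r hr => ?_⟩
  have h1 : ∑ t ∈ univ.erase r, D.c r t * (if t ∈ U then w t else 0) =
      ∑ t ∈ U.erase r, D.c r t * w t := by
    rw [← Finset.sum_subset (erase_subset_erase r (subset_univ U))]
    · refine sum_congr rfl fun t ht => ?_
      simp [mem_of_mem_erase ht]
    · intro t ht ht'
      have : t ∉ U := fun h => ht' (mem_erase.2 ⟨ne_of_mem_erase ht, h⟩)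
      simp [this]
  rw [h1]
  simpa [hr] using hw2 r hr

/-- Lowering the thresholds by a nonnegative vector `w` with `B_U w ≥ 0`. -/
theorem IsCls.lower {a : A} {U : Finset S} {n : S → ℤ} {ρ : S → ℝ} (h : IsCls K a U n ρ)
    {w : S → ℝ} (hw : ∀ r ∈ U, ∑ t ∈ univ.erase r, D.c r t * (if t ∈ U then w t else 0) ≤ 2 * w r)
    {c : ℝ} (hc : 0 ≤ c) :
    IsCls K a U n (fun t => ρ t - c * w t) := by
  refine ⟨h.n_const, h.ext_zero, h.out_zero, ?_⟩
  intro r hr
  have h1 := h.ineq r hr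
  have h2 := mul_le_mul_of_nonneg_left (hw r hr) hc
  rw [mul_sum] at h2
  have h3 : ∑ t ∈ univ.erase r, D.c r t * (if t ∈ U then ρ t - c * w t else K.F a (n r) t) =
      ∑ t ∈ univ.erase r, D.c r t * (if t ∈ U then ρ t else K.F a (n r) t) -
      ∑ t ∈ univ.erase r, c * (D.c r t * (if t ∈ U then w t else 0)) := by
    rw [← sum_sub_distrib]
    refine sum_congr rfl fun t _ => ?_
    by_cases ht : t ∈ U
    · simp only [ht, if_true]; ring
    · simp only [ht, if_false]; ring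
  rw [h3]
  linarith

/-- The values of the key system below `x`. -/
def Vals (K : Key D) (x : ℝ) : Set ℝ := {y | y < x ∧ ∃ h n t, K.F h n t = y}

theorem Vals_finite (x : ℝ) : (Vals K x).Finite :=
  (K.F_disc x).subset fun _ hy => ⟨hy.1.le, hy.2⟩

theorem Vals_mono {x y : ℝ} (h : x ≤ y) : Vals K x ⊆ Vals K y :=
  fun _ hz => ⟨hz.1.trans_le h, hz.2⟩

/-- One step down. -/
theorem step_down {a : A} {U : Finset S} (hU : D.Sph U) {n : S → ℤ} {ρ : S → ℝ}
    (hcl : IsCls K a U n ρ) (hne : (Neg K a U n ρ).Nonempty) :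
    ∃ ρ' : S → ℝ, ∃ t0 ∈ U, IsCls K a U n ρ' ∧
      Neg K a U n ρ = Neg K a U n ρ' ∪ {p | p ∈ Zer K a U n ρ' ∧ p.2 ∈ ({t0} : Finset S)} ∧
      (∀ t, ρ' t ≤ ρ t) ∧ (Vals K (ρ' t0)).ncard < (Vals K (ρ t0)).ncard := by
  classical
  obtain ⟨w, hwpos, hw0, hw⟩ := exists_pos hU
  -- the set of pairs (type, value)
  obtain ⟨p0, hp0⟩ := hne
  have hfin : ∀ t, (Vals K (ρ t)).Finite := fun t => Vals_finite _
  set E : Finset (S × ℝ) := U.biUnion fun t => (hfin t).toFinset.image fun y => (t, y) with hE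
  have hmemE : ∀ t y, (t, y) ∈ E ↔ t ∈ U ∧ y ∈ Vals K (ρ t) := by
    intro t y
    simp only [hE, mem_biUnion, mem_image, Set.Finite.mem_toFinset, Prod.mk.injEq]
    constructor
    · rintro ⟨t', ht', y', hy', rfl, rfl⟩
      exact ⟨ht', hy'⟩
    · rintro ⟨ht, hy⟩
      exact ⟨t, ht, y, hy, rfl, rfl⟩
  have hEne : E.Nonempty :=
    ⟨(p0.2, K.F p0.1 (n p0.2) p0.2), (hmemE _ _).2 ⟨hp0.2.1, hp0.2.2.2, _, _, _, rfl⟩⟩
  obtain ⟨⟨t0, l⟩, hl, hmin⟩ := Finset.exists_min_image E (fun x => (ρ x.1 - x.2) / w x.1) hEne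
  obtain ⟨ht0, hl1, hl2⟩ := (hmemE _ _).1 hl
  have hwt0 := hwpos t0 ht0
  set c : ℝ := (ρ t0 - l) / w t0 with hc
  have hcpos : 0 < c := div_pos (by linarith) hwt0
  have hcw : c * w t0 = ρ t0 - l := div_mul_cancel₀ _ hwt0.ne'
  -- the small constant
  have hUne : U.Nonempty := ⟨t0, ht0⟩
  obtain ⟨κ, hκ, hκ1, hκ2⟩ : ∃ κ > 0, (∀ r ∈ U, κ ≤ w r) ∧
      ∀ r ∈ U, 2 * κ ≤ 2 * w r - ∑ t ∈ univ.erase r, D.c r t * w t := by
    obtain ⟨r1, hr1, hm1⟩ := Finset.exists_min_image U w hUne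
    obtain ⟨r2, hr2, hm2⟩ := Finset.exists_min_image U
      (fun r => 2 * w r - ∑ t ∈ univ.erase r, D.c r t * w t) hUne
    refine ⟨min (w r1) ((2 * w r2 - ∑ t ∈ univ.erase r2, D.c r2 t * w t) / 2),
      lt_min (hwpos r1 hr1) (half_pos (by linarith [hw r2 hr2])),
      fun r hr => (min_le_left _ _).trans (hm1 r hr), fun r hr => ?_⟩
    have h1 := min_le_right (w r1) ((2 * w r2 - ∑ t ∈ univ.erase r2, D.c r2 t * w t) / 2)
    have h2 := hm2 r hr
    linarith
  set w' : S → ℝ := fun t => if t ∈ U then (if t = t0 then w t else w t - κ) else 0 with hw'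
  have hw'nn : ∀ t, 0 ≤ w' t := by
    intro t
    simp only [hw']
    split_ifs with h1 h2
    · exact (hwpos t h1).le
    · linarith [hκ1 t h1]
    · exact le_rfl
  have hw'le : ∀ t, w' t ≤ w t := by
    intro t
    simp only [hw']
    split_ifs with h1 h2
    · exact le_rfl
    · linarith
    · exact (hw0 t h1).ge
  have hw't0 : w' t0 = w t0 := by simp [hw', ht0]
  have hw'B : ∀ r ∈ U,
      ∑ t ∈ univ.erase r, D.c r t * (if t ∈ U then w' t else 0) ≤ 2 * w' r := by
    intro r hr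
    have h1 : ∑ t ∈ univ.erase r, D.c r t * (if t ∈ U then w' t else 0) ≤
        ∑ t ∈ univ.erase r, D.c r t * w t := by
      refine sum_le_sum fun t ht => ?_
      refine mul_le_mul_of_nonneg_left ?_ (D.c_nonneg r t (ne_of_mem_erase ht).symm)
      split_ifs with h
      · exact hw'le t
      · exact (hw0 t h).ge
    have h2 := hκ2 r hr
    have h3 : w r - κ ≤ w' r := by
      simp only [hw', hr, if_true]
      split_ifs
      · linarith
      · exact le_rfl
    linarith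
  refine ⟨fun t => ρ t - c * w' t, t0, ht0, hcl.lower hw'B hcpos.le, ?_, ?_, ?_⟩
  · -- the class sets
    have hle : ∀ t, ρ t - c * w' t ≤ ρ t := fun t => by
      have := mul_nonneg hcpos.le (hw'nn t); linarith
    refine Set.Subset.antisymm ?_ ?_
    · rintro p ⟨h1, h2, h3, h4⟩
      have h5 := hmin (p.2, K.F p.1 (n p.2) p.2) ((hmemE _ _).2 ⟨h2, h4, _, _, _, rfl⟩)
      simp only at h5
      have hwp := hwpos _ h2
      have h6 : c * w p.2 ≤ ρ p.2 - K.F p.1 (n p.2) p.2 := by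
        rw [← le_div_iff₀ hwp]; exact h5
      by_cases hpt : p.2 = t0
      · rcases h6.lt_or_eq with h7 | h7
        · left
          refine ⟨h1, h2, h3, ?_⟩
          show K.F p.1 (n p.2) p.2 < ρ p.2 - c * w' p.2
          have : w' p.2 = w p.2 := by rw [hpt]; exact hw't0
          rw [this]; linarith
        · right
          refine ⟨⟨h1, h2, h3, ?_⟩, mem_singleton.2 hpt⟩
          show K.F p.1 (n p.2) p.2 = ρ p.2 - c * w' p.2
          have : w' p.2 = w p.2 := by rw [hpt]; exact hw't0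
          rw [this]; linarith
      · left
        refine ⟨h1, h2, h3, ?_⟩
        show K.F p.1 (n p.2) p.2 < ρ p.2 - c * w' p.2
        have : w' p.2 = w p.2 - κ := by simp [hw', h2, hpt]
        rw [this, mul_sub]
        have := mul_pos hcpos hκ
        linarith
    · rintro p (⟨h1, h2, h3, h4⟩ | ⟨⟨h1, h2, h3, h4⟩, h5⟩)
      · exact ⟨h1, h2, h3, h4.trans_le (hle _)⟩
      · refine ⟨h1, h2, h3, ?_⟩
        have hpt : p.2 = t0 := mem_singleton.1 h5
        have h4' : K.F p.1 (n p.2) p.2 = ρ p.2 - c * w' p.2 := h4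
        rw [h4', hpt, hw't0]
        have := mul_pos hcpos hwt0
        linarith
  · intro t
    have := mul_nonneg hcpos.le (hw'nn t)
    show ρ t - c * w' t ≤ ρ t
    linarith
  · have hρ' : ρ t0 - c * w' t0 = l := by rw [hw't0, hcw]; ring
    show (Vals K (ρ t0 - c * w' t0)).ncard < _
    rw [hρ']
    refine Set.ncard_lt_ncard ?_ (Vals_finite _)
    refine ⟨Vals_mono hl1.le, fun h => ?_⟩
    exact lt_irrefl l (h ⟨hl1, hl2⟩).1

/-- CLAIM for spherical `U`. -/
theorem P1_sph {U : Finset S} (hU : D.Sph U) (hPC : PC K U) (hPZ : PZ K U)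
    (hP3 : ∀ t ∈ U, P3 G K (U.erase t)) (hP4 : ∀ t ∈ U, P4 G (U.erase t)) : P1 G K U := by
  intro a n ρ hcl hne
  obtain ⟨k, hk⟩ : ∃ k, k = ∑ t ∈ U, (Vals K (ρ t)).ncard := ⟨_, rfl⟩
  induction k using Nat.strong_induction_on generalizing ρ with
  | _ k ih =>
  obtain ⟨ρ', t0, ht0, hcl', hN, hle, hlt⟩ := step_down hU hcl hne
  by_cases hne' : (Neg K a U n ρ').Nonempty
  · have hk' : ∑ t ∈ U, (Vals K (ρ' t)).ncard < k := by
      rw [hk]
      exact Finset.sum_lt_sum
        (fun t _ => Set.ncard_le_ncard (Vals_mono (hle t)) (Vals_finite _)) ⟨t0, ht0, hlt⟩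
    have h1 := ih _ hk' ρ' hcl' hne' rfl
    have h2 := add_type (G := G) hcl' hne' hPZ hP3 hP4 (crel_W G) ∅ t0 (notMem_empty _)
    rw [hN]
    have h3 : Neg K a U n ρ' ∪ {p | p ∈ Zer K a U n ρ' ∧ p.2 ∈ (∅ : Finset S)} =
        Neg K a U n ρ' := by simp
    rw [h3] at h2
    exact h2 h1
  · -- a single vertex
    obtain ⟨⟨g, s⟩, hp⟩ := hne
    have hall : ∀ p ∈ Neg K a U n ρ, p.2 = t0 := by
      intro p hp
      rw [hN] at hp
      rcases hp with hp | hp
      · exact absurd ⟨p, hp⟩ hne'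
      · exact mem_singleton.1 hp.2
    have hs : s = t0 := hall _ hp
    subst hs
    have hsingle : ∀ q, Reach D U (Neg K a U n ρ) (g, s) q →
        q.2 = s ∧ g⁻¹ * q.1 ∈ Par D (U.erase s) := by
      intro q hq
      induction hq with
      | refl => exact ⟨rfl, coset_refl g⟩
      | @tail q q' _ h2 ih2 =>
        obtain ⟨h3, h4, h5⟩ := h2
        refine ⟨hall _ h4, ?_⟩
        rcases h5 with ⟨_, h6⟩ | h5
        · rw [ih2.1] at h6
          exact coset_trans ih2.2 h6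
        · rw [← h5]; exact ih2.2
    have hNeg : ∀ p, p ∈ Neg K a U n ρ ↔
        p ∈ (∅ : Set (A × S)) ∨ (p.2 = s ∧ g⁻¹ * p.1 ∈ Par D (U.erase s)) := by
      intro p
      constructor
      · intro h
        exact Or.inr (hsingle p (hPC a n ρ hcl _ hp _ h))
      · rintro (h | ⟨h1, h2⟩)
        · exact absurd h (Set.notMem_empty _)
        · obtain ⟨p1, p2⟩ := p
          simp only at h1
          subst h1
          exact Neg_move K hp h2
    rw [XX_add hp.1 ht0 hNeg]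
    have : XX D a U (∅ : Set (A × S)) = ∅ := by
      ext x
      simp [XX]
    rw [this, Set.empty_union]
    exact hP4 s ht0 g

end Spherical

section Nonspherical

variable {D : Data S A} {G : GoodTheory D} {K : Key D}

/-- A nonspherical set has a nonspherical connected component. -/
theorem exists_component (U : Finset S) (hU : ¬ D.Sph U) : ∃ V ⊆ U, ¬ D.Sph V ∧ GConn D V ∧
    ∀ r ∈ V, ∀ t ∈ U, t ∉ V → D.c r t = 0 := by
  induction U using Finset.strongInduction with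
  | _ U ih =>
  by_cases hc : GConn D U
  · exact ⟨U, subset_rfl, hU, hc, fun r _ t ht ht' => absurd ht ht'⟩
  · unfold GConn at hc
    push Not at hc
    obtain ⟨V, hVU, hVne, hVneU, hV⟩ := hc
    have h1 : V ⊂ U := lt_of_le_of_ne hVU hVneU
    have h2 : U \ V ⊂ U := by
      refine Finset.ssubset_iff_of_subset sdiff_subset |>.2 ?_
      obtain ⟨x, hx⟩ := hVne
      exact ⟨x, hVU hx, fun h => (mem_sdiff.1 h).2 hx⟩
    by_cases hs : D.Sph V
    · have hs2 : ¬ D.Sph (U \ V) := by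
        intro hs2
        refine hU ?_
        have := D.sph_union (fun r hr t ht =>
          ⟨fun h => (mem_sdiff.1 ht).2 (h ▸ hr), hV r hr t ht⟩) hs hs2
        rwa [union_sdiff_of_subset hVU] at this
      obtain ⟨V', hV'1, hV'2, hV'3, hV'4⟩ := ih _ h2 hs2
      refine ⟨V', hV'1.trans sdiff_subset, hV'2, hV'3, fun r hr t ht ht' => ?_⟩
      by_cases htV : t ∈ V
      · rw [D.c_symm]; exact hV t htV r (hV'1 hr)
      · exact hV'4 r hr t (mem_sdiff.2 ⟨ht, htV⟩) ht'
    · obtain ⟨V', hV'1, hV'2, hV'3, hV'4⟩ := ih _ h1 hs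
      refine ⟨V', hV'1.trans hVU, hV'2, hV'3, fun r hr t ht ht' => ?_⟩
      by_cases htV : t ∈ V
      · exact hV'4 r hr t htV ht'
      · exact hV r (hV'1 hr) t (mem_sdiff.2 ⟨ht, htV⟩)

/-- Going up to the full complex. -/
theorem lift_full {U V : Finset S} (hVU : V ⊆ U) (hV : ¬ D.Sph V) (hVc : GConn D V)
    (hcV : ∀ r ∈ V, ∀ t ∈ U, t ∉ V → D.c r t = 0)
    (hPZ : PZ K U) (hP3 : ∀ t ∈ U, P3 G K (U.erase t)) (hP4 : ∀ t ∈ U, P4 G (U.erase t))
    {R : Set (A × Finset S) → Set (A × Finset S) → Prop} (hR : CRel D G R)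
    {a : A} {n : S → ℤ} {ρ : S → ℝ} (hcl : IsCls K a U n ρ) (hne : (Neg K a U n ρ).Nonempty) :
    R (XX D a U (Neg K a U n ρ)) (Q D a U) := by
  obtain ⟨w, hwpos, hw0, hw⟩ := exists_vin hV hVc
  have h1 := lift (V := V) (w := w) (hR.lrel G a U) hcl hVU hcV hwpos hw0 hw
    (fun n' ρ' hcl' hne' => add_types hcl' hne' hPZ hP3 hP4 hR V) hne
  have h2 : XX D a U {p | p ∈ Full D a U ∧ (p.2 ∉ V → p ∈ Neg K a U n ρ)} = Q D a U := by
    ext x
    constructor
    · rintro ⟨h1, h2, h3, _⟩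
      exact ⟨h1, h2, h3⟩
    · rintro ⟨h1, h2, h3⟩
      have : ¬ V ⊆ x.2 := fun h => hV (D.sph_mono h h3)
      obtain ⟨t, htV, htx⟩ := Finset.not_subset.1 this
      exact ⟨h1, h2, h3, t, hVU htV, htx, ⟨h1, hVU htV⟩, fun h => absurd htV h⟩
  rw [h2] at h1
  exact h1

/-- CLAIM for nonspherical `U`. -/
theorem P1_nonsph {U : Finset S} (hU : ¬ D.Sph U) (hPZ : PZ K U)
    (hP3 : ∀ t ∈ U, P3 G K (U.erase t)) (hP4 : ∀ t ∈ U, P4 G (U.erase t)) (h4 : P4 G U) :
    P1 G K U := by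
  intro a n ρ hcl hne
  obtain ⟨V, hVU, hV, hVc, hcV⟩ := exists_component U hU
  have h1 := lift_full hVU hV hVc hcV hPZ hP3 hP4 (crel_E G) hcl hne
  refine G.E_back _ _ (XX_sat (Neg_stable K _ _ _ _)) (Q_sat D a U)
    (XX_nonempty (Neg_stable K _ _ _ _) hne) ?_ h1 (h4 a)
  rintro x ⟨h1, h2, h3, _⟩
  exact ⟨h1, h2, h3⟩

/-- Partial base simplices are good. -/
theorem simplex_good (hN : Nice K) {a : A} (hF : Framed K a) (U : Finset S)
    (hP4 : ∀ U' ⊂ U, P4 G U') (J : Finset S) (hJ : J ⊆ U) (hJne : J.Nonempty) :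
    G.W (XX D a U {p | p.2 ∈ J ∧ a⁻¹ * p.1 ∈ Par D (U.erase p.2)}) := by
  have hst : ∀ U J : Finset S, J ⊆ U →
      Stable D a U {p | p.2 ∈ J ∧ a⁻¹ * p.1 ∈ Par D (U.erase p.2)} := by
    rintro U J hJU h t ⟨h1, h2⟩
    exact ⟨Par_erase_le D U t h2, hJU h1, fun h' hh => ⟨h1, coset_trans h2 hh⟩⟩
  induction U using Finset.strongInduction generalizing J with
  | _ U ihU =>
  induction J using Finset.induction_on with
  | empty => exact absurd hJne not_nonempty_empty
  | insert t J htJ ihJ =>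
    have htU : t ∈ U := hJ (mem_insert_self _ _)
    have hJU : J ⊆ U := (subset_insert _ _).trans hJ
    have hadd : ∀ p : A × S, p ∈ {p : A × S | p.2 ∈ insert t J ∧ a⁻¹ * p.1 ∈ Par D (U.erase p.2)} ↔
        p ∈ {p : A × S | p.2 ∈ J ∧ a⁻¹ * p.1 ∈ Par D (U.erase p.2)} ∨
          (p.2 = t ∧ a⁻¹ * p.1 ∈ Par D (U.erase t)) := by
      intro p
      constructor
      · rintro ⟨h1, h2⟩
        rcases mem_insert.1 h1 with h | h
        · exact Or.inr ⟨h, h ▸ h2⟩
        · exact Or.inl ⟨h, h2⟩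
      · rintro (⟨h1, h2⟩ | ⟨h1, h2⟩)
        · exact ⟨mem_insert_of_mem h1, h2⟩
        · exact ⟨mem_insert.2 (Or.inl h1), h1.symm ▸ h2⟩
    rw [XX_add (coset_refl a) htU hadd]
    rcases J.eq_empty_or_nonempty with rfl | hJne'
    · have : XX D a U {p : A × S | p.2 ∈ (∅ : Finset S) ∧ a⁻¹ * p.1 ∈ Par D (U.erase p.2)} = ∅ := by
        ext x
        simp [XX]
      rw [this, Set.empty_union]
      exact hP4 _ (erase_ssubset htU) a
    · have h1 := ihJ hJU hJne'
      have h2 := hP4 _ (erase_ssubset htU) a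
      refine G.union _ _ (XX_sat (hst U J hJU)) (Q_sat D a _) h1 h2 ?_
      have h3 := ihU (U.erase t) (erase_ssubset htU)
        (fun U' hU' => hP4 U' (hU'.trans (erase_ssubset htU))) J
        (fun s hs => mem_erase.2 ⟨fun h => htJ (h ▸ hs), hJU hs⟩) hJne'
      rw [XX_inter (X' := {p | p.2 ∈ J ∧ a⁻¹ * p.1 ∈ Par D ((U.erase t).erase p.2)})
        (coset_refl a)]
      · exact h3
      · rintro h _ ⟨h1, _⟩
        exact htJ h1
      · rintro q ⟨hq1, hq2⟩
        constructor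
        · rintro ⟨h1, h2⟩
          exact ⟨h1, Par_mono D (erase_subset_erase _ (erase_subset _ _)) h2⟩
        · rintro ⟨h1, h2⟩
          exact ⟨h1, Par_inter hN hF (hJU h1) (mem_erase.1 hq2).1.symm hq1 h2⟩

/-- The full complex is good, nonspherical case. -/
theorem P4_nonsph {U : Finset S} (hU : ¬ D.Sph U)
    (hkey : ∀ a, ∃ K : Key D, Nice K ∧ Framed K a)
    (hP3 : ∀ K : Key D, Nice K → ∀ t ∈ U, P3 G K (U.erase t))
    (hP4 : ∀ U' ⊂ U, P4 G U') : P4 G U := by
  intro a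
  obtain ⟨K, hN, hF⟩ := hkey a
  obtain ⟨V, hVU, hV, hVc, hcV⟩ := exists_component U hU
  obtain ⟨ε, hε, hcl, hmem⟩ := hF.exists_eps
  have hVne : V.Nonempty := by
    rw [nonempty_iff_ne_empty]
    rintro rfl
    exact hV D.sph_empty
  have hne : (Neg K a U (fun _ => 0) (fun t => if t ∈ V then ε else 0)).Nonempty := by
    obtain ⟨t, ht⟩ := hVne
    exact ⟨(a, t), (hmem V U hVU _).2 ⟨coset_refl a, ht, fun m _ => hF.F_base m t⟩⟩
  have h1 := lift_full (G := G) hVU hV hVc hcV (graph hN U).2 (hP3 K hN)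
    (fun t ht => hP4 _ (erase_ssubset ht)) (crel_W G) (hcl V U hVU) hne
  refine h1 ?_
  have h2 : Neg K a U (fun _ => 0) (fun t => if t ∈ V then ε else 0) =
      {p | p.2 ∈ V ∧ a⁻¹ * p.1 ∈ Par D (U.erase p.2)} := by
    ext p
    rw [hmem V U hVU p]
    constructor
    · rintro ⟨h1, h2, h3⟩
      exact ⟨h2, base_simplex hN hF U p.1 p.2 h1 (hVU h2) h3⟩
    · rintro ⟨h1, h2⟩
      refine ⟨Par_erase_le D U p.2 h2, h1, fun m _ => ?_⟩
      rw [F_erase K h2]
      exact hF.F_base m p.2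
  rw [h2]
  exact simplex_good hN hF U hP4 V hVU hVne

end Nonspherical

/-- **Main theorem of block MORSE.**  If the complexes of the spherical subsets are good, and every
`a` carries a framed key system with (Conn) and (Z) for connected spherical subsets, then all
complexes are good. -/
theorem main {D : Data S A} (G : GoodTheory D) (hsph : ∀ a U, D.Sph U → G.W (Q D a U))
    (hkey : ∀ a, ∃ K : Key D, Nice K ∧ Framed K a) (a : A) (U : Finset S) : G.W (Q D a U) := by
  suffices h : ∀ U, P4 G U ∧ ∀ K : Key D, Nice K → P1 G K U ∧ P3 G K U from (h U).1 a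
  intro U
  induction U using Finset.strongInduction with
  | _ U ih =>
  have hP3 : ∀ K : Key D, Nice K → ∀ t ∈ U, P3 G K (U.erase t) := fun K hK t ht =>
    ((ih _ (erase_ssubset ht)).2 K hK).2
  have hP4 : ∀ U' ⊂ U, P4 G U' := fun U' hU' => (ih _ hU').1
  have h4 : P4 G U := by
    by_cases hU : D.Sph U
    · exact fun a => hsph a U hU
    · exact P4_nonsph hU hkey hP3 hP4
  refine ⟨h4, fun K hK => ?_⟩
  have hPZ := (graph hK U).2
  have hP1 : P1 G K U := by
    by_cases hU : D.Sph U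
    · exact P1_sph hU (graph hK U).1 hPZ (hP3 K hK) fun t ht => hP4 _ (erase_ssubset ht)
    · exact P1_nonsph hU hPZ (hP3 K hK) (fun t ht => hP4 _ (erase_ssubset ht)) h4
  exact ⟨hP1, P3_of_P1 hP1 hPZ (hP3 K hK) fun t ht => hP4 _ (erase_ssubset ht)⟩

end Vale.Agent.P203.Morse
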