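import Mathlib

/-!
# P203, block MORSE: definitions

Everything is done for a group `A` with a finite family of elements `σ s` (the Artin group with its
standard generators), inside the subgroups `A_U = closure (σ '' U)`.

A vertex of the coset complex `Δ_U` (based at `a`) is a class of pairs `(h, t)`, `h ∈ a A_U`,
`t ∈ U`, modulo `(h, t) ∼ (h x, t)`, `x ∈ A_{U - t}`.  We never form the quotient: a set of
vertices is a set of pairs stable under these moves.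
-/

namespace Vale.Agent.P203.Morse

open Finset

variable {S A : Type} [Fintype S] [DecidableEq S] [Group A]

/-- The combinatorial data: generators, the numbers `c s t = 2 cos (π / m_st)`, spherical subsets
and the Vinberg vectors. -/
structure Data (S A : Type) [Fintype S] [DecidableEq S] [Group A] where
  /-- the generators -/
  σ : S → A
  /-- `c s t = 2 cos (π / m_st)` for `s ≠ t` (`2` for `m_st = ∞`) -/
  c : S → S → ℝ
  c_symm : ∀ s t, c s t = c t s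
  c_nonneg : ∀ s t, s ≠ t → 0 ≤ c s t
  comm : ∀ s t, s ≠ t → c s t = 0 → σ s * σ t = σ t * σ s
  /-- spherical subsets -/
  Sph : Finset S → Prop
  sph_mono : ∀ {T U : Finset S}, T ⊆ U → Sph U → Sph T
  sph_empty : Sph ∅
  sph_singleton : ∀ s, Sph {s}
  sph_union : ∀ {U V : Finset S}, (∀ r ∈ U, ∀ t ∈ V, r ≠ t ∧ c r t = 0) → Sph U → Sph V →
    Sph (U ∪ V)
  posVec : ∀ U : Finset S, Sph U → ∃ w : S → ℝ, (∀ t ∈ U, 0 < w t) ∧
    ∀ r ∈ U, ∑ t ∈ U.erase r, c r t * w t < 2 * w r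
  vinVec : ∀ U : Finset S, ¬ Sph U →
    (∀ V ⊆ U, V.Nonempty → V ≠ U → ∃ r ∈ V, ∃ t ∈ U \ V, c r t ≠ 0) →
    ∃ w : S → ℝ, (∀ t ∈ U, 0 < w t) ∧ ∀ r ∈ U, 2 * w r ≤ ∑ t ∈ U.erase r, c r t * w t

variable (D : Data S A)

/-- The subgroup `A_U`. -/
def Par (U : Finset S) : Subgroup A := Subgroup.closure (D.σ '' (U : Set S))

/-- `U` is connected. -/
def GConn (U : Finset S) : Prop :=
  ∀ V ⊆ U, V.Nonempty → V ≠ U → ∃ r ∈ V, ∃ t ∈ U \ V, D.c r t ≠ 0

/-- A key system: `F h n t` is the (weighted) dimension of `H^n ((h⁻¹ G)_t)`; `w0 n r` is the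
contribution of the framing (sum over the outside nodes `x` of `c r x * dim H^n (G_x)`). -/
structure Key (D : Data S A) where
  F : A → ℤ → S → ℝ
  w0 : ℤ → S → ℝ
  F_nonneg : ∀ h n t, 0 ≤ F h n t
  w0_nonneg : ∀ n t, 0 ≤ w0 n t
  F_mul : ∀ h n t s, s ≠ t → F (h * D.σ s) n t = F h n t
  F_bdd : ∀ h t, ∃ N : ℤ, ∀ m > N, F h m t = 0
  F_disc : ∀ C : ℝ, {x : ℝ | x ≤ C ∧ ∃ h n t, F h n t = x}.Finite

variable {D} (K : Key D)

/-- Class data: base `a`, subset `U`, top degrees `n` (constant on the components of `U`),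
thresholds `ρ`, with the class inequality `B_U ρ ≤ w`. -/
structure IsCls (a : A) (U : Finset S) (n : S → ℤ) (ρ : S → ℝ) : Prop where
  n_const : ∀ r ∈ U, ∀ t ∈ U, r ≠ t → D.c r t ≠ 0 → n r = n t
  ext_zero : ∀ r ∈ U, ∀ m > n r, K.w0 m r = 0
  out_zero : ∀ r ∈ U, ∀ s ∉ U, D.c r s ≠ 0 → ∀ m > n r, K.F a m s = 0
  ineq : ∀ r ∈ U, 2 * ρ r ≤ K.w0 (n r) r +
    ∑ t ∈ univ.erase r, D.c r t * (if t ∈ U then ρ t else K.F a (n r) t)

/-- The vertices with `ψ < 0`. -/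
def Neg (a : A) (U : Finset S) (n : S → ℤ) (ρ : S → ℝ) : Set (A × S) :=
  {p | a⁻¹ * p.1 ∈ Par D U ∧ p.2 ∈ U ∧ (∀ m > n p.2, K.F p.1 m p.2 = 0) ∧
    K.F p.1 (n p.2) p.2 < ρ p.2}

/-- The vertices with `ψ = 0`. -/
def Zer (a : A) (U : Finset S) (n : S → ℤ) (ρ : S → ℝ) : Set (A × S) :=
  {p | a⁻¹ * p.1 ∈ Par D U ∧ p.2 ∈ U ∧ (∀ m > n p.2, K.F p.1 m p.2 = 0) ∧
    K.F p.1 (n p.2) p.2 = ρ p.2}

variable (D)

/-- Elementary moves between pairs of `X`: same vertex of `Δ_U`, or two vertices of the same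
chamber. -/
def Step (U : Finset S) (X : Set (A × S)) (p q : A × S) : Prop :=
  p ∈ X ∧ q ∈ X ∧ ((p.2 = q.2 ∧ p.1⁻¹ * q.1 ∈ Par D (U.erase p.2)) ∨ p.1 = q.1)

/-- Being connected in `X`. -/
def Reach (U : Finset S) (X : Set (A × S)) : A × S → A × S → Prop :=
  Relation.ReflTransGen (Step D U X)

/-- The set `X` of vertices of `Δ_U` is connected (or empty). -/
def Connected (U : Finset S) (X : Set (A × S)) : Prop :=
  ∀ p ∈ X, ∀ q ∈ X, Reach D U X p q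

/-- `q` lies in the link of `p` (in `Δ_U`). -/
def InLink (U : Finset S) (p q : A × S) : Prop :=
  p.1⁻¹ * q.1 ∈ Par D (U.erase p.2) ∧ q.2 ∈ U.erase p.2

variable {D}

/-- (Conn) for `U`. -/
def PC (U : Finset S) : Prop :=
  ∀ a n ρ, IsCls K a U n ρ → Connected D U (Neg K a U n ρ)

/-- (Z) for `U`: if `{ψ < 0}` is nonempty then every vertex with `ψ = 0` has a negative
neighbour. -/
def PZ (U : Finset S) : Prop :=
  ∀ a n ρ, IsCls K a U n ρ → (Neg K a U n ρ).Nonempty → ∀ p ∈ Zer K a U n ρ,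
    ∃ q ∈ Neg K a U n ρ, InLink D U p q

/-- The input from block FOLD: (Conn) and (Z) for connected spherical `U`. -/
structure Nice : Prop where
  conn : ∀ U, D.Sph U → GConn D U → PC K U
  zero : ∀ U, D.Sph U → GConn D U → PZ K U

/-- The framing object based at `a`. -/
structure Framed (a : A) : Prop where
  F_base : ∀ m t, K.F a m t = 0
  w0_zero : ∀ t, 0 < K.w0 0 t
  w0_pos : ∀ m > 0, ∀ t, K.w0 m t = 0

/-! ### Good theories -/

variable (D)

/-- All cells `(h, T)`, `h ∈ a A_U`, `T ⊆ U` spherical. -/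
def Q (a : A) (U : Finset S) : Set (A × Finset S) :=
  {x | a⁻¹ * x.1 ∈ Par D U ∧ x.2 ⊆ U ∧ D.Sph x.2}

/-- The union of the `Q (h, U - t)`, `(h, t) ∈ X`. -/
def XX (a : A) (U : Finset S) (X : Set (A × S)) : Set (A × Finset S) :=
  {x | a⁻¹ * x.1 ∈ Par D U ∧ x.2 ⊆ U ∧ D.Sph x.2 ∧ ∃ t ∈ U, t ∉ x.2 ∧ (x.1, t) ∈ X}

/-- Saturated sets of cells: with `(h, T)` they contain all `(h x, T')`, `x ∈ A_T`, `T' ⊆ T`. -/
def Sat (X : Set (A × Finset S)) : Prop :=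
  ∀ h T, (h, T) ∈ X → D.Sph T ∧ ∀ h' T', T' ⊆ T → h⁻¹ * h' ∈ Par D T → (h', T') ∈ X

/-- A good theory on (saturated) sets of cells: `W X` says that `X` is contractible, `E X Y` that
`X ⊆ Y` is (injective on homotopy / homology). -/
structure GoodTheory where
  W : Set (A × Finset S) → Prop
  E : Set (A × Finset S) → Set (A × Finset S) → Prop
  union : ∀ X Y, Sat D X → Sat D Y → W X → W Y → W (X ∩ Y) → W (X ∪ Y)
  dir : ∀ X : Set (Set (A × Finset S)), X.Nonempty → DirectedOn (· ⊆ ·) X →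
    (∀ x ∈ X, Sat D x) → (∀ x ∈ X, W x) → W (⋃₀ X)
  E_refl : ∀ X, Sat D X → E X X
  E_trans : ∀ X Y Z, Sat D X → Sat D Y → Sat D Z → X ⊆ Y → Y ⊆ Z → E X Y → E Y Z → E X Z
  E_attach : ∀ X Y, Sat D X → Sat D Y → W Y → W (X ∩ Y) → E X (X ∪ Y)
  E_dir : ∀ P, ∀ X : Set (Set (A × Finset S)), X.Nonempty → DirectedOn (· ⊆ ·) X →
    Sat D P → (∀ x ∈ X, Sat D x ∧ P ⊆ x) → (∀ x ∈ X, E P x) → E P (⋃₀ X)
  E_back : ∀ X Y, Sat D X → Sat D Y → X.Nonempty → X ⊆ Y → E X Y → W Y → W X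

end Vale.Agent.P203.Morse
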