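import Vale.Agent.P203.Morse.Defs

/-!
# P203, block MORSE: basic lemmas
-/

namespace Vale.Agent.P203.Morse

open Finset

variable {S A : Type} [Fintype S] [DecidableEq S] [Group A]

section Par

variable (D : Data S A)

theorem Par_mono {U V : Finset S} (h : U ⊆ V) : Par D U ≤ Par D V :=
  Subgroup.closure_mono (Set.image_mono (by exact_mod_cast h))

theorem σ_mem_Par {U : Finset S} {s : S} (h : s ∈ U) : D.σ s ∈ Par D U :=
  Subgroup.subset_closure ⟨s, by exact_mod_cast h, rfl⟩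

theorem Par_erase_le (U : Finset S) (t : S) : Par D (U.erase t) ≤ Par D U :=
  Par_mono D (erase_subset _ _)

theorem Par_empty : Par D (∅ : Finset S) = ⊥ := by
  simp [Par]

/-- Transitivity of cosets. -/
theorem coset_trans {P : Subgroup A} {a b c : A} (h1 : a⁻¹ * b ∈ P) (h2 : b⁻¹ * c ∈ P) :
    a⁻¹ * c ∈ P := by
  have := P.mul_mem h1 h2
  simpa [mul_assoc] using this

theorem coset_symm {P : Subgroup A} {a b : A} (h : a⁻¹ * b ∈ P) : b⁻¹ * a ∈ P := by
  have := P.inv_mem h
  simpa using this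

theorem coset_refl {P : Subgroup A} (a : A) : a⁻¹ * a ∈ P := by
  simp [P.one_mem]

/-- Elements of `A_V` and `A_V'` commute if there is no edge between `V` and `V'`. -/
theorem Par_commute {V V' : Finset S} (hc : ∀ r ∈ V, ∀ t ∈ V', r ≠ t ∧ D.c r t = 0) {x y : A}
    (hx : x ∈ Par D V) (hy : y ∈ Par D V') : x * y = y * x := by
  have h1 : ∀ s ∈ V, ∀ y ∈ Par D V', Commute (D.σ s) y := by
    intro s hs y hy
    induction hy using Subgroup.closure_induction with
    | mem y hy =>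
      obtain ⟨t, ht, rfl⟩ := hy
      exact D.comm s t (hc s hs t (by exact_mod_cast ht)).1 (hc s hs t (by exact_mod_cast ht)).2
    | one => exact Commute.one_right _
    | mul y z _ _ h1 h2 => exact h1.mul_right h2
    | inv y _ h => exact h.inv_right
  have h2 : Commute x y := by
    induction hx using Subgroup.closure_induction with
    | mem x hx =>
      obtain ⟨t, ht, rfl⟩ := hx
      exact h1 t (by exact_mod_cast ht) y hy
    | one => exact Commute.one_left _
    | mul y z _ _ h1 h2 => exact h1.mul_left h2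
    | inv y _ h => exact h.inv_left
  exact h2

theorem Par_decomp {V V' : Finset S} (hc : ∀ r ∈ V, ∀ t ∈ V', r ≠ t ∧ D.c r t = 0) {x : A}
    (hx : x ∈ Par D (V ∪ V')) : ∃ y ∈ Par D V, ∃ z ∈ Par D V', x = y * z := by
  induction hx using Subgroup.closure_induction with
  | mem x hx =>
    obtain ⟨t, ht, rfl⟩ := hx
    have ht' : t ∈ V ∪ V' := by exact_mod_cast ht
    rcases mem_union.1 ht' with h | h
    · exact ⟨_, σ_mem_Par D h, 1, one_mem _, by simp⟩
    · exact ⟨1, one_mem _, _, σ_mem_Par D h, by simp⟩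
  | one => exact ⟨1, one_mem _, 1, one_mem _, by simp⟩
  | mul x x' _ _ h1 h2 =>
    obtain ⟨y, hy, z, hz, rfl⟩ := h1
    obtain ⟨y', hy', z', hz', rfl⟩ := h2
    refine ⟨y * y', mul_mem hy hy', z * z', mul_mem hz hz', ?_⟩
    have := Par_commute D hc hy' hz
    calc y * z * (y' * z') = y * (z * y') * z' := by group
      _ = y * (y' * z) * z' := by rw [this]
      _ = y * y' * (z * z') := by group
  | inv x _ h =>
    obtain ⟨y, hy, z, hz, rfl⟩ := h
    refine ⟨y⁻¹, inv_mem hy, z⁻¹, inv_mem hz, ?_⟩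
    rw [mul_inv_rev]
    exact (Par_commute D hc (inv_mem hy) (inv_mem hz)).symm

end Par

section Key

variable {D : Data S A} (K : Key D)

theorem F_mul_mem {U : Finset S} {t : S} (ht : t ∉ U) {x : A} (hx : x ∈ Par D U) (h : A) (n : ℤ) :
    K.F (h * x) n t = K.F h n t := by
  induction hx using Subgroup.closure_induction generalizing h with
  | mem x hx =>
    obtain ⟨s, hs, rfl⟩ := hx
    have : s ∈ U := by exact_mod_cast hs
    exact K.F_mul h n t s (fun h => ht (h ▸ this))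
  | one => simp
  | mul x y _ _ h1 h2 => rw [← mul_assoc, h2, h1]
  | inv x _ h1 =>
    have := h1 (h * x⁻¹)
    rw [inv_mul_cancel_right] at this
    exact this.symm

theorem F_coset {U : Finset S} {t : S} (ht : t ∉ U) {h h' : A} (hx : h⁻¹ * h' ∈ Par D U)
    (n : ℤ) : K.F h' n t = K.F h n t := by
  have := F_mul_mem K ht hx h n
  rwa [mul_inv_cancel_left] at this

theorem F_erase {U : Finset S} {t : S} {h h' : A} (hx : h⁻¹ * h' ∈ Par D (U.erase t))
    (n : ℤ) : K.F h' n t = K.F h n t :=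
  F_coset K (notMem_erase t U) hx n

variable {K}

/-- Change of base point. -/
theorem IsCls.base {a g : A} {U : Finset S} {n : S → ℤ} {ρ : S → ℝ} (h : IsCls K a U n ρ)
    (hg : a⁻¹ * g ∈ Par D U) : IsCls K g U n ρ := by
  refine ⟨h.n_const, h.ext_zero, ?_, ?_⟩
  · intro r hr s hs hc m hm
    rw [F_coset K hs hg]
    exact h.out_zero r hr s hs hc m hm
  · intro r hr
    refine (h.ineq r hr).trans (le_of_eq ?_)
    congr 1
    refine sum_congr rfl fun t _ => ?_
    by_cases ht : t ∈ U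
    · simp [ht]
    · simp only [ht, if_false]
      rw [F_coset K ht hg]

/-- The class of a link. -/
theorem IsCls.link {a g : A} {U : Finset S} {n : S → ℤ} {ρ : S → ℝ} (h : IsCls K a U n ρ)
    (hg : a⁻¹ * g ∈ Par D U) {t : S} (ht : t ∈ U) (h0 : ∀ m > n t, K.F g m t = 0)
    (hρ : ρ t ≤ K.F g (n t) t) : IsCls K g (U.erase t) n ρ := by
  have hb := h.base hg
  refine ⟨fun r hr s hs => h.n_const r (mem_of_mem_erase hr) s (mem_of_mem_erase hs),
    fun r hr => h.ext_zero r (mem_of_mem_erase hr), ?_, ?_⟩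
  · intro r hr s hs hc m hm
    by_cases hst : s = t
    · subst hst
      have : n r = n s := h.n_const r (mem_of_mem_erase hr) s ht (ne_of_mem_erase hr) hc
      exact h0 m (this ▸ hm)
    · have hs' : s ∉ U := fun hsU => hs (mem_erase.2 ⟨hst, hsU⟩)
      exact hb.out_zero r (mem_of_mem_erase hr) s hs' hc m hm
  · intro r hr
    refine (hb.ineq r (mem_of_mem_erase hr)).trans ?_
    refine add_le_add le_rfl (sum_le_sum fun s hs => ?_)
    have hsr : r ≠ s := (ne_of_mem_erase hs).symm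
    by_cases hc : D.c r s = 0
    · simp [hc]
    refine mul_le_mul_of_nonneg_left ?_ (D.c_nonneg r s hsr)
    by_cases hst : s = t
    · subst hst
      have hn : n r = n s := h.n_const r (mem_of_mem_erase hr) s ht hsr hc
      simp only [ht, if_true, mem_erase, ne_eq, not_true_eq_false, false_and, if_false]
      rw [hn]; exact hρ
    · by_cases hsU : s ∈ U
      · simp [hsU, hst]
      · simp [hsU]

/-- Raising the thresholds by `w'` with `B_U w' ≤ 0`. -/
theorem IsCls.raise {a : A} {U : Finset S} {n : S → ℤ} {ρ : S → ℝ} (h : IsCls K a U n ρ)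
    {w : S → ℝ} (hw : ∀ r ∈ U, 2 * w r ≤ ∑ t ∈ univ.erase r, D.c r t * w t)
    (hw0 : ∀ t ∉ U, w t = 0) {c : ℝ} (hc : 0 ≤ c) :
    IsCls K a U n (fun t => ρ t + c * w t) := by
  refine ⟨h.n_const, h.ext_zero, h.out_zero, ?_⟩
  intro r hr
  have h1 := h.ineq r hr
  have h2 := mul_le_mul_of_nonneg_left (hw r hr) hc
  rw [mul_sum] at h2
  have h3 : ∑ t ∈ univ.erase r, D.c r t * (if t ∈ U then ρ t + c * w t else K.F a (n r) t) =
      ∑ t ∈ univ.erase r, D.c r t * (if t ∈ U then ρ t else K.F a (n r) t) +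
      ∑ t ∈ univ.erase r, c * (D.c r t * w t) := by
    rw [← sum_add_distrib]
    refine sum_congr rfl fun t _ => ?_
    by_cases ht : t ∈ U
    · simp only [ht, if_true]; ring
    · simp only [ht, if_false, hw0 t ht]; ring
  rw [h3]
  linarith

/-- Restriction to a union of components. -/
theorem IsCls.restrict {a : A} {U V : Finset S} {n : S → ℤ} {ρ : S → ℝ} (h : IsCls K a U n ρ)
    (hV : V ⊆ U) (hc : ∀ r ∈ V, ∀ t ∈ U, t ∉ V → D.c r t = 0) : IsCls K a V n ρ := by
  refine ⟨fun r hr s hs => h.n_const r (hV hr) s (hV hs), fun r hr => h.ext_zero r (hV hr),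
    ?_, ?_⟩
  · intro r hr s hs hcrs m hm
    by_cases hsU : s ∈ U
    · exact absurd (hc r hr s hsU hs) hcrs
    · exact h.out_zero r (hV hr) s hsU hcrs m hm
  · intro r hr
    refine (h.ineq r (hV hr)).trans (le_of_eq ?_)
    congr 1
    refine sum_congr rfl fun t _ => ?_
    by_cases htV : t ∈ V
    · simp [htV, hV htV]
    · by_cases htU : t ∈ U
      · simp [hc r hr t htU htV]
      · simp [htV, htU]

/-- Changing the data on a union `V` of components of `U` to degrees `n' ≥ n` and thresholds `ρ'`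
satisfying the inequality without external terms. -/
theorem IsCls.shift {a : A} {U V : Finset S} {n n' : S → ℤ} {ρ ρ' : S → ℝ}
    (h : IsCls K a U n ρ) (hV : V ⊆ U)
    (hc : ∀ r ∈ V, ∀ t ∈ U, t ∉ V → D.c r t = 0)
    (hn : ∀ t ∉ V, n' t = n t) (hn' : ∀ t ∈ V, n t ≤ n' t)
    (hcn : ∀ r ∈ V, ∀ t ∈ V, r ≠ t → D.c r t ≠ 0 → n' r = n' t)
    (hρ : ∀ t ∉ V, ρ' t = ρ t)
    (hw : ∀ r ∈ V, 2 * ρ' r ≤ ∑ t ∈ univ.erase r, D.c r t * (if t ∈ V then ρ' t else 0)) :
    IsCls K a U n' ρ' := by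
  refine ⟨?_, ?_, ?_, ?_⟩
  · intro r hr t ht hrt hcrt
    by_cases hrV : r ∈ V
    · by_cases htV : t ∈ V
      · exact hcn r hrV t htV hrt hcrt
      · exact absurd (hc r hrV t ht htV) hcrt
    · by_cases htV : t ∈ V
      · exact absurd (by rw [D.c_symm]; exact hc t htV r hr hrV) hcrt
      · rw [hn r hrV, hn t htV]; exact h.n_const r hr t ht hrt hcrt
  · intro r hr m hm
    by_cases hrV : r ∈ V
    · exact h.ext_zero r hr m (lt_of_le_of_lt (hn' r hrV) hm)
    · exact h.ext_zero r hr m (hn r hrV ▸ hm)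
  · intro r hr s hs hcrs m hm
    by_cases hrV : r ∈ V
    · exact h.out_zero r hr s hs hcrs m (lt_of_le_of_lt (hn' r hrV) hm)
    · exact h.out_zero r hr s hs hcrs m (hn r hrV ▸ hm)
  · intro r hr
    by_cases hrV : r ∈ V
    · refine (hw r hrV).trans ?_
      have h1 : ∑ t ∈ univ.erase r, D.c r t * (if t ∈ V then ρ' t else 0) ≤
          ∑ t ∈ univ.erase r, D.c r t * (if t ∈ U then ρ' t else K.F a (n' r) t) := by
        refine sum_le_sum fun t ht => ?_
        have hrt : r ≠ t := (ne_of_mem_erase ht).symm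
        by_cases htV : t ∈ V
        · simp [htV, hV htV]
        · by_cases htU : t ∈ U
          · simp [hc r hrV t htU htV]
          · simp only [htV, htU, if_false, mul_zero]
            exact mul_nonneg (D.c_nonneg r t hrt) (K.F_nonneg _ _ _)
      have h2 := K.w0_nonneg (n' r) r
      linarith
    · rw [hρ r hrV, hn r hrV]
      refine (h.ineq r hr).trans (le_of_eq ?_)
      congr 1
      refine sum_congr rfl fun t _ => ?_
      by_cases htV : t ∈ V
      · have : D.c r t = 0 := by rw [D.c_symm]; exact hc t htV r hr hrV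
        simp [this]
      · rw [hρ t htV]

variable (K)

/-- The link of a vertex in a class set is the class set of the link. -/
theorem Neg_link {a g : A} {U : Finset S} (n : S → ℤ) (ρ : S → ℝ) (hg : a⁻¹ * g ∈ Par D U)
    {t : S} (q : A × S) :
    q ∈ Neg K g (U.erase t) n ρ ↔ q ∈ Neg K a U n ρ ∧ InLink D U (g, t) q := by
  constructor
  · rintro ⟨h1, h2, h3, h4⟩
    exact ⟨⟨coset_trans hg (Par_erase_le D U t h1), mem_of_mem_erase h2, h3, h4⟩, h1, h2⟩
  · rintro ⟨⟨h1, h2, h3, h4⟩, h5, h6⟩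
    exact ⟨h5, h6, h3, h4⟩

theorem Zer_link {a g : A} {U : Finset S} (n : S → ℤ) (ρ : S → ℝ) (hg : a⁻¹ * g ∈ Par D U)
    {t : S} (q : A × S) :
    q ∈ Zer K g (U.erase t) n ρ ↔ q ∈ Zer K a U n ρ ∧ InLink D U (g, t) q := by
  constructor
  · rintro ⟨h1, h2, h3, h4⟩
    exact ⟨⟨coset_trans hg (Par_erase_le D U t h1), mem_of_mem_erase h2, h3, h4⟩, h1, h2⟩
  · rintro ⟨⟨h1, h2, h3, h4⟩, h5, h6⟩
    exact ⟨h5, h6, h3, h4⟩

/-- Class sets are stable under the moves. -/
theorem Neg_move {a : A} {U : Finset S} {n : S → ℤ} {ρ : S → ℝ} {h h' : A} {t : S}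
    (hp : (h, t) ∈ Neg K a U n ρ) (hh : h⁻¹ * h' ∈ Par D (U.erase t)) :
    (h', t) ∈ Neg K a U n ρ := by
  obtain ⟨h1, h2, h3, h4⟩ := hp
  refine ⟨coset_trans h1 (Par_erase_le D U t hh), h2, ?_, ?_⟩
  · intro m hm; show K.F h' m t = 0; rw [F_erase K hh]; exact h3 m hm
  · show K.F h' (n t) t < ρ t; rw [F_erase K hh]; exact h4

theorem Zer_move {a : A} {U : Finset S} {n : S → ℤ} {ρ : S → ℝ} {h h' : A} {t : S}
    (hp : (h, t) ∈ Zer K a U n ρ) (hh : h⁻¹ * h' ∈ Par D (U.erase t)) :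
    (h', t) ∈ Zer K a U n ρ := by
  obtain ⟨h1, h2, h3, h4⟩ := hp
  refine ⟨coset_trans h1 (Par_erase_le D U t hh), h2, ?_, ?_⟩
  · intro m hm; show K.F h' m t = 0; rw [F_erase K hh]; exact h3 m hm
  · show K.F h' (n t) t = ρ t; rw [F_erase K hh]; exact h4

theorem Neg_base {a g : A} {U : Finset S} (n : S → ℤ) (ρ : S → ℝ) (hg : a⁻¹ * g ∈ Par D U) :
    Neg K g U n ρ = Neg K a U n ρ := by
  ext q
  constructor
  · rintro ⟨h1, h2⟩; exact ⟨coset_trans hg h1, h2⟩
  · rintro ⟨h1, h2⟩; exact ⟨coset_trans (coset_symm hg) h1, h2⟩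

theorem Zer_base {a g : A} {U : Finset S} (n : S → ℤ) (ρ : S → ℝ) (hg : a⁻¹ * g ∈ Par D U) :
    Zer K g U n ρ = Zer K a U n ρ := by
  ext q
  constructor
  · rintro ⟨h1, h2⟩; exact ⟨coset_trans hg h1, h2⟩
  · rintro ⟨h1, h2⟩; exact ⟨coset_trans (coset_symm hg) h1, h2⟩

theorem not_neg_of_zer {a : A} {U : Finset S} {n : S → ℤ} {ρ : S → ℝ} {p : A × S}
    (h1 : p ∈ Zer K a U n ρ) (h2 : p ∈ Neg K a U n ρ) : False := by
  have := h2.2.2.2; have h3 := h1.2.2.2; linarith

end Key

section Reach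

variable (D : Data S A)

theorem Step.symm {U : Finset S} {X : Set (A × S)} {p q : A × S} (h : Step D U X p q) :
    Step D U X q p := by
  obtain ⟨hp, hq, h⟩ := h
  refine ⟨hq, hp, ?_⟩
  rcases h with ⟨h1, h2⟩ | h
  · left; exact ⟨h1.symm, h1 ▸ coset_symm h2⟩
  · right; exact h.symm

theorem Reach.symm {U : Finset S} {X : Set (A × S)} {p q : A × S} (h : Reach D U X p q) :
    Reach D U X q p := by
  induction h with
  | refl => exact Relation.ReflTransGen.refl
  | tail _ h2 ih => exact Relation.ReflTransGen.head (h2.symm D) ih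

theorem Step.mono {U V : Finset S} {X Y : Set (A × S)} (hUV : U ⊆ V) (hXY : X ⊆ Y) {p q : A × S}
    (h : Step D U X p q) : Step D V Y p q := by
  obtain ⟨hp, hq, h⟩ := h
  refine ⟨hXY hp, hXY hq, ?_⟩
  rcases h with ⟨h1, h2⟩ | h
  · left; exact ⟨h1, Par_mono D (erase_subset_erase _ hUV) h2⟩
  · right; exact h

theorem Reach.mono {U V : Finset S} {X Y : Set (A × S)} (hUV : U ⊆ V) (hXY : X ⊆ Y) {p q : A × S}
    (h : Reach D U X p q) : Reach D V Y p q := by
  induction h with
  | refl => exact Relation.ReflTransGen.refl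
  | tail _ h2 ih => exact ih.tail (h2.mono D hUV hXY)

theorem Reach.trans {U : Finset S} {X : Set (A × S)} {p q r : A × S} (h1 : Reach D U X p q)
    (h2 : Reach D U X q r) : Reach D U X p r :=
  Relation.ReflTransGen.trans h1 h2

/-- The full set of vertices of `Δ_U`. -/
def Full (a : A) (U : Finset S) : Set (A × S) := {p | a⁻¹ * p.1 ∈ Par D U ∧ p.2 ∈ U}

/-- `Δ_U` is connected if `U` has at least two elements. -/
theorem Full_connected (a : A) (U : Finset S) (hU : 2 ≤ U.card) :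
    Connected D U (Full D a U) := by
  -- same chamber
  have h0 : ∀ h t t', (h, t) ∈ Full D a U → t' ∈ U → Reach D U (Full D a U) (h, t) (h, t') := by
    intro h t t' h1 h2
    exact Relation.ReflTransGen.single ⟨h1, ⟨h1.1, h2⟩, Or.inr rfl⟩
  -- neighbouring chambers
  have h1 : ∀ h s t, a⁻¹ * h ∈ Par D U → s ∈ U → t ∈ U →
      Reach D U (Full D a U) (h, t) (h * D.σ s, t) := by
    intro h s t hh hs ht
    have hs' : a⁻¹ * (h * D.σ s) ∈ Par D U := by
      rw [← mul_assoc]; exact mul_mem hh (σ_mem_Par D hs)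
    by_cases hst : s = t
    · subst hst
      obtain ⟨t', ht', hne⟩ : ∃ t' ∈ U, t' ≠ s := by
        have := Finset.one_lt_card.1 hU
        obtain ⟨x, hx, y, hy, hxy⟩ := this
        by_cases h : x = s
        · exact ⟨y, hy, fun h' => hxy (h.trans h'.symm)⟩
        · exact ⟨x, hx, h⟩
      refine (h0 h s t' ⟨hh, hs⟩ ht').trans D ?_
      refine Reach.trans D ?_ (h0 (h * D.σ s) t' s ⟨hs', ht'⟩ hs)
      refine Relation.ReflTransGen.single ⟨⟨hh, ht'⟩, ⟨hs', ht'⟩, Or.inl ⟨rfl, ?_⟩⟩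
      simpa using σ_mem_Par D (mem_erase.2 ⟨hne.symm, hs⟩)
    · refine Relation.ReflTransGen.single ⟨⟨hh, ht⟩, ⟨hs', ht⟩, Or.inl ⟨rfl, ?_⟩⟩
      simpa using σ_mem_Par D (mem_erase.2 ⟨hst, hs⟩)
  have h2 : ∀ x ∈ Par D U, ∀ h t, a⁻¹ * h ∈ Par D U → t ∈ U →
      Reach D U (Full D a U) (h, t) (h * x, t) := by
    intro x hx
    induction hx using Subgroup.closure_induction with
    | mem x hx =>
      obtain ⟨s, hs, rfl⟩ := hx
      intro h t hh ht
      exact h1 h s t hh (by exact_mod_cast hs) ht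
    | one => intro h t _ _; rw [mul_one]; exact Relation.ReflTransGen.refl
    | mul x y hx hy ih1 ih2 =>
      intro h t hh ht
      have hh' : a⁻¹ * (h * x) ∈ Par D U := by
        rw [← mul_assoc]; exact mul_mem hh hx
      rw [← mul_assoc]
      exact (ih1 h t hh ht).trans D (ih2 (h * x) t hh' ht)
    | inv x hx ih =>
      intro h t hh ht
      have hh' : a⁻¹ * (h * x⁻¹) ∈ Par D U := by
        rw [← mul_assoc]; exact mul_mem hh (inv_mem hx)
      have := ih (h * x⁻¹) t hh' ht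
      rw [inv_mul_cancel_right] at this
      exact this.symm D
  rintro ⟨h, t⟩ hp ⟨h', t'⟩ hq
  have h3 := h2 (h⁻¹ * h') (coset_trans (coset_symm hp.1) hq.1) h t hp.1 hp.2
  rw [mul_inv_cancel_left] at h3
  exact h3.trans D (h0 h' t t' ⟨hq.1, hp.2⟩ hq.2)

end Reach

end Vale.Agent.P203.Morse
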