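import Vale.Agent.P203.Morse.Basic

/-!
# P203, block MORSE: going up through the levels

`lift`: an abstract relation which contains all the steps `{ψ < 0} → {ψ < 0} ∪ {ψ = 0, type in V}`
and is closed under unions contains `({ψ < 0}, everything of type in V)`.
-/

namespace Vale.Agent.P203.Morse

open Finset

variable {S A : Type} [Fintype S] [DecidableEq S] [Group A]

variable (D : Data S A)

/-- A set of pairs of `Δ_U` stable under the moves. -/
def Stable (a : A) (U : Finset S) (X : Set (A × S)) : Prop :=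
  ∀ h t, (h, t) ∈ X → a⁻¹ * h ∈ Par D U ∧ t ∈ U ∧
    ∀ h', h⁻¹ * h' ∈ Par D (U.erase t) → (h', t) ∈ X

/-- An abstract relation on the stable sets of vertices. -/
structure LRel (a : A) (U : Finset S) (R : Set (A × S) → Set (A × S) → Prop) : Prop where
  refl : ∀ X, Stable D a U X → R X X
  trans : ∀ X Y Z, Stable D a U X → Stable D a U Y → Stable D a U Z → X ⊆ Y → Y ⊆ Z →
    R X Y → R Y Z → R X Z
  dir : ∀ X (Y : ℕ → Set (A × S)), Stable D a U X → (∀ i, Stable D a U (Y i)) → Monotone Y →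
    (∀ i, X ⊆ Y i) → (∀ i, R X (Y i)) → R X (⋃ i, Y i)

variable {D} (K : Key D)

theorem Neg_stable (a : A) (U : Finset S) (n : S → ℤ) (ρ : S → ℝ) :
    Stable D a U (Neg K a U n ρ) := by
  intro h t hp
  exact ⟨hp.1, hp.2.1, fun h' hh => Neg_move K hp hh⟩

theorem Zer_stable (a : A) (U : Finset S) (n : S → ℤ) (ρ : S → ℝ) :
    Stable D a U (Zer K a U n ρ) := by
  intro h t hp
  exact ⟨hp.1, hp.2.1, fun h' hh => Zer_move K hp hh⟩

theorem Stable.union {a : A} {U : Finset S} {X Y : Set (A × S)} (hX : Stable D a U X)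
    (hY : Stable D a U Y) : Stable D a U (X ∪ Y) := by
  rintro h t (hp | hp)
  · obtain ⟨h1, h2, h3⟩ := hX h t hp
    exact ⟨h1, h2, fun h' hh => Or.inl (h3 h' hh)⟩
  · obtain ⟨h1, h2, h3⟩ := hY h t hp
    exact ⟨h1, h2, fun h' hh => Or.inr (h3 h' hh)⟩

theorem Stable.iUnion {ι : Type*} {a : A} {U : Finset S} {X : ι → Set (A × S)}
    (hX : ∀ i, Stable D a U (X i)) : Stable D a U (⋃ i, X i) := by
  intro h t hp
  obtain ⟨i, hi⟩ := Set.mem_iUnion.1 hp
  obtain ⟨h1, h2, h3⟩ := hX i h t hi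
  exact ⟨h1, h2, fun h' hh => Set.mem_iUnion.2 ⟨i, h3 h' hh⟩⟩

theorem Stable.sep {a : A} {U : Finset S} {X : Set (A × S)} (hX : Stable D a U X)
    (P : S → Prop) : Stable D a U {p | p ∈ X ∧ P p.2} := by
  intro h t hp
  obtain ⟨h1, h2, h3⟩ := hX h t hp.1
  exact ⟨h1, h2, fun h' hh => ⟨h3 h' hh, hp.2⟩⟩

theorem Full_stable (a : A) (U : Finset S) : Stable D a U (Full D a U) := by
  intro h t hp
  exact ⟨hp.1, hp.2, fun h' hh => ⟨coset_trans hp.1 (Par_erase_le D U t hh), hp.2⟩⟩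

/-- The positive values are bounded below. -/
theorem exists_gap : ∃ δ > 0, ∀ h n t, K.F h n t = 0 ∨ δ ≤ K.F h n t := by
  have hfin := K.F_disc 1
  have hfin' : ({x : ℝ | x ≤ 1 ∧ ∃ h n t, K.F h n t = x} ∩ {x | 0 < x}).Finite :=
    hfin.subset Set.inter_subset_left
  by_cases hne : ({x : ℝ | x ≤ 1 ∧ ∃ h n t, K.F h n t = x} ∩ {x | 0 < x}).Nonempty
  · obtain ⟨x, hx, hmin⟩ := Set.exists_min_image _ id hfin' hne
    refine ⟨min x 1, lt_min hx.2 one_pos, fun h n t => ?_⟩
    rcases (K.F_nonneg h n t).eq_or_lt with h0 | h0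
    · left; exact h0.symm
    · right
      by_cases h1 : K.F h n t ≤ 1
      · exact (min_le_left _ _).trans (hmin _ ⟨⟨h1, h, n, t, rfl⟩, h0⟩)
      · exact (min_le_right _ _).trans (not_le.1 h1).le
  · refine ⟨1, one_pos, fun h n t => ?_⟩
    rcases (K.F_nonneg h n t).eq_or_lt with h0 | h0
    · left; exact h0.symm
    · right
      by_contra h1
      exact hne ⟨_, ⟨(not_le.1 h1).le, h, n, t, rfl⟩, h0⟩

theorem exists_next (J : Finset ℝ) {x c : ℝ} (hx : x < c) :
    ∃ x', x < x' ∧ x' ≤ c ∧ (x' = c ∨ x' ∈ J) ∧ ∀ y ∈ J, y ≤ x ∨ x' ≤ y := by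
  obtain ⟨m, hm, hmin⟩ := Finset.exists_min_image (insert c (J.filter (x < ·))) id
    (insert_nonempty _ _)
  refine ⟨m, ?_, hmin c (mem_insert_self _ _), ?_, ?_⟩
  · rcases mem_insert.1 hm with h | h
    · exact h ▸ hx
    · exact (mem_filter.1 h).2
  · rcases mem_insert.1 hm with h | h
    · exact Or.inl h
    · exact Or.inr (mem_filter.1 h).1
  · intro y hy
    by_cases h : x < y
    · right; exact hmin y (mem_insert_of_mem (mem_filter.2 ⟨hy, h⟩))
    · left; exact not_lt.1 h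

section Lift

variable {K}
variable {a : A} {U V : Finset S} {w : S → ℝ}
variable {R : Set (A × S) → Set (A × S) → Prop}

theorem Neg_mono {n : S → ℤ} {ρ ρ' : S → ℝ} (h : ∀ t ∈ U, ρ t ≤ ρ' t) :
    Neg K a U n ρ ⊆ Neg K a U n ρ' := by
  rintro p ⟨h1, h2, h3, h4⟩
  exact ⟨h1, h2, h3, h4.trans_le (h _ h2)⟩

/-- The next level. -/
theorem next_level {n : S → ℤ} {ρ : S → ℝ}
    (hwpos : ∀ t ∈ V, 0 < w t) (hw0 : ∀ t ∉ V, w t = 0)
    {c' : ℝ} (J : Finset ℝ)
    (hJ : ∀ h t y, t ∈ V → K.F h (n t) t = ρ t + y * w t → y < c' → y ∈ J)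
    {c : ℝ} (hlt : c < c') :
    ∃ x, c < x ∧ x ≤ c' ∧ (x = c' ∨ x ∈ J) ∧
      Neg K a U n (fun t => ρ t + c * w t) ∪
        {p | p ∈ Zer K a U n (fun t => ρ t + c * w t) ∧ p.2 ∈ V} =
      Neg K a U n (fun t => ρ t + x * w t) := by
  have hw : ∀ t, 0 ≤ w t := fun t => by
    by_cases h : t ∈ V
    · exact (hwpos t h).le
    · exact (hw0 t h).ge
  obtain ⟨x, hcx, hxc', hxJ, hx⟩ := exists_next J hlt
  refine ⟨x, hcx, hxc', hxJ, Set.Subset.antisymm ?_ ?_⟩
  · rintro p (hp | ⟨⟨h1, h2, h3, h4⟩, h5⟩)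
    · exact Neg_mono (fun t _ => by
        have := mul_le_mul_of_nonneg_right hcx.le (hw t); linarith) hp
    · refine ⟨h1, h2, h3, ?_⟩
      have := mul_lt_mul_of_pos_right hcx (hwpos _ h5)
      show K.F p.1 (n p.2) p.2 < ρ p.2 + x * w p.2
      linarith
  · rintro p ⟨h1, h2, h3, h4⟩
    by_cases hpV : p.2 ∈ V
    · have hpos := hwpos _ hpV
      set y := (K.F p.1 (n p.2) p.2 - ρ p.2) / w p.2 with hy
      have hy' : K.F p.1 (n p.2) p.2 = ρ p.2 + y * w p.2 := by
        rw [hy, div_mul_cancel₀ _ hpos.ne']; ring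
      have hyx : y < x := by
        have : ρ p.2 + y * w p.2 < ρ p.2 + x * w p.2 := hy' ▸ h4
        have h' : y * w p.2 < x * w p.2 := by linarith
        exact lt_of_mul_lt_mul_right h' hpos.le
      have hyJ := hJ p.1 p.2 y hpV hy' (hyx.trans_le hxc')
      rcases hx y hyJ with hyc | hyc
      · rcases hyc.eq_or_lt with hyc | hyc
        · right
          refine ⟨⟨h1, h2, h3, ?_⟩, hpV⟩
          show K.F p.1 (n p.2) p.2 = ρ p.2 + c * w p.2
          rw [hy', hyc]
        · left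
          refine ⟨h1, h2, h3, ?_⟩
          show K.F p.1 (n p.2) p.2 < ρ p.2 + c * w p.2
          rw [hy']
          have := mul_lt_mul_of_pos_right hyc hpos
          linarith
      · exact absurd hyx (not_lt.2 hyc)
    · left
      refine ⟨h1, h2, h3, ?_⟩
      have h4' : K.F p.1 (n p.2) p.2 < ρ p.2 + x * w p.2 := h4
      show K.F p.1 (n p.2) p.2 < ρ p.2 + c * w p.2
      rw [hw0 _ hpV] at h4' ⊢
      simpa using h4'

/-- Going up from level `c` to level `c'`. -/
theorem lift_aux {n : S → ℤ} {ρ : S → ℝ} (hR : LRel D a U R)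
    (hwpos : ∀ t ∈ V, 0 < w t) (hw0 : ∀ t ∉ V, w t = 0)
    (hcls : ∀ c ≥ 0, IsCls K a U n (fun t => ρ t + c * w t))
    (hstep : ∀ n' ρ', IsCls K a U n' ρ' → (Neg K a U n' ρ').Nonempty →
      R (Neg K a U n' ρ') (Neg K a U n' ρ' ∪ {p | p ∈ Zer K a U n' ρ' ∧ p.2 ∈ V}))
    {c' : ℝ} (J : Finset ℝ)
    (hJ : ∀ h t y, t ∈ V → K.F h (n t) t = ρ t + y * w t → y < c' → y ∈ J)
    {c : ℝ} (hc0 : 0 ≤ c) (hcc' : c ≤ c')
    (hne : (Neg K a U n (fun t => ρ t + c * w t)).Nonempty) :
    R (Neg K a U n (fun t => ρ t + c * w t)) (Neg K a U n (fun t => ρ t + c' * w t)) := by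
  have hw : ∀ t, 0 ≤ w t := fun t => by
    by_cases h : t ∈ V
    · exact (hwpos t h).le
    · exact (hw0 t h).ge
  obtain ⟨k, hk⟩ : ∃ k, k = (J.filter (c < ·)).card := ⟨_, rfl⟩
  induction k using Nat.strong_induction_on generalizing c with
  | _ k ih =>
  rcases hcc'.eq_or_lt with rfl | hlt
  · exact hR.refl _ (Neg_stable K _ _ _ _)
  -- the next jump after `c`
  obtain ⟨x, hcx, hxc', hxJ, hx⟩ := next_level (a := a) (U := U) hwpos hw0 J hJ hlt
  have hsub : ∀ {y z : ℝ}, y ≤ z →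
      Neg K a U n (fun t => ρ t + y * w t) ⊆ Neg K a U n (fun t => ρ t + z * w t) :=
    fun hyz => Neg_mono (fun t _ => by
      have := mul_le_mul_of_nonneg_right hyz (hw t); linarith)
  have h3 := hstep n _ (hcls c hc0) hne
  rw [hx] at h3
  rcases hxc'.eq_or_lt with rfl | hxlt
  · exact h3
  · have hxJ' : x ∈ J := hxJ.resolve_left hxlt.ne
    have hcard : (J.filter (x < ·)).card < k := by
      rw [hk]
      refine Finset.card_lt_card ?_
      rw [Finset.ssubset_iff_of_subset (fun y hy => by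
        rw [mem_filter] at hy ⊢; exact ⟨hy.1, hcx.trans hy.2⟩)]
      exact ⟨x, mem_filter.2 ⟨hxJ', hcx⟩, fun h => absurd (mem_filter.1 h).2 (lt_irrefl _)⟩
    have h4 := ih _ hcard (hc0.trans hcx.le) hxc' (hne.mono (hsub hcx.le)) rfl
    exact hR.trans _ _ _ (Neg_stable K _ _ _ _) (Neg_stable K _ _ _ _) (Neg_stable K _ _ _ _)
      (hsub hcx.le) (hsub hxc') h3 h4

/-- The jumps below a given level are finite in number. -/
theorem exists_jumps (n : S → ℤ) (ρ : S → ℝ) (hwpos : ∀ t ∈ V, 0 < w t) (c' : ℝ) :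
    ∃ J : Finset ℝ, ∀ h t y, t ∈ V → K.F h (n t) t = ρ t + y * w t → y < c' → y ∈ J := by
  -- values of `F` below `C`
  set C : ℝ := ∑ t, (|ρ t| + |c'| * |w t|) with hC
  have hfin : {x : ℝ | x ≤ C ∧ ∃ h n t, K.F h n t = x}.Finite := K.F_disc C
  refine ⟨univ.biUnion fun t : S => hfin.toFinset.image fun x => (x - ρ t) / w t, ?_⟩
  intro h t y ht hF hy
  rw [mem_biUnion]
  refine ⟨t, mem_univ _, mem_image.2 ⟨K.F h (n t) t, ?_, ?_⟩⟩
  · rw [Set.Finite.mem_toFinset]
    refine ⟨?_, h, n t, t, rfl⟩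
    have h1 : |ρ t| + |c'| * |w t| ≤ C :=
      Finset.single_le_sum (f := fun t => |ρ t| + |c'| * |w t|)
        (fun t _ => by positivity) (mem_univ t)
    refine le_trans ?_ h1
    rw [hF]
    have h2 := hwpos t ht
    have h3 : y * w t ≤ c' * w t := mul_le_mul_of_nonneg_right hy.le h2.le
    have h4 : c' * w t ≤ |c'| * |w t| := by rw [← abs_mul]; exact le_abs_self _
    have h5 := le_abs_self (ρ t)
    linarith
  · rw [hF]
    field_simp [(hwpos t ht).ne']
    ring

/-- Going up through all thresholds, at a fixed degree. -/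
theorem lift_union {n : S → ℤ} {ρ : S → ℝ} (hR : LRel D a U R)
    (hwpos : ∀ t ∈ V, 0 < w t) (hw0 : ∀ t ∉ V, w t = 0)
    (hcls : ∀ c ≥ 0, IsCls K a U n (fun t => ρ t + c * w t))
    (hstep : ∀ n' ρ', IsCls K a U n' ρ' → (Neg K a U n' ρ').Nonempty →
      R (Neg K a U n' ρ') (Neg K a U n' ρ' ∪ {p | p ∈ Zer K a U n' ρ' ∧ p.2 ∈ V}))
    {c : ℝ} (hc0 : 0 ≤ c)
    (hne : (Neg K a U n (fun t => ρ t + c * w t)).Nonempty) :
    R (Neg K a U n (fun t => ρ t + c * w t))
      {p | p ∈ Full D a U ∧ (∀ m > n p.2, K.F p.1 m p.2 = 0) ∧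
        (p.2 ∉ V → K.F p.1 (n p.2) p.2 < ρ p.2)} := by
  have hw : ∀ t, 0 ≤ w t := fun t => by
    by_cases h : t ∈ V
    · exact (hwpos t h).le
    · exact (hw0 t h).ge
  have hsub : ∀ {y z : ℝ}, y ≤ z →
      Neg K a U n (fun t => ρ t + y * w t) ⊆ Neg K a U n (fun t => ρ t + z * w t) :=
    fun hyz => Neg_mono (fun t _ => by
      have := mul_le_mul_of_nonneg_right hyz (hw t); linarith)
  have h1 := hR.dir (Neg K a U n (fun t => ρ t + c * w t))
    (fun i : ℕ => Neg K a U n (fun t => ρ t + (c + i) * w t)) (Neg_stable K _ _ _ _)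
    (fun i => Neg_stable K _ _ _ _)
    (fun i j hij => hsub (by have : (i : ℝ) ≤ j := by exact_mod_cast hij
                             linarith))
    (fun i => hsub (by have : (0 : ℝ) ≤ i := by positivity
                       linarith))
    (fun i => by
      obtain ⟨J, hJ⟩ := exists_jumps (K := K) n ρ hwpos (c + i)
      exact lift_aux hR hwpos hw0 hcls hstep J hJ hc0 (by
        have : (0 : ℝ) ≤ i := by positivity
        linarith) hne)
  convert h1 using 1
  ext p
  simp only [Set.mem_ofPred_eq, Set.mem_iUnion]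
  constructor
  · rintro ⟨h2, h3, h4⟩
    by_cases hpV : p.2 ∈ V
    · have hpos := hwpos _ hpV
      obtain ⟨i, hi⟩ := exists_nat_gt ((K.F p.1 (n p.2) p.2 - ρ p.2) / w p.2)
      refine ⟨i, h2.1, h2.2, h3, ?_⟩
      rw [div_lt_iff₀ hpos] at hi
      show K.F p.1 (n p.2) p.2 < ρ p.2 + (c + i) * w p.2
      have : 0 ≤ c * w p.2 := mul_nonneg hc0 hpos.le
      linarith
    · refine ⟨0, h2.1, h2.2, h3, ?_⟩
      show K.F p.1 (n p.2) p.2 < ρ p.2 + (c + (0 : ℕ)) * w p.2
      rw [hw0 _ hpV]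
      simpa using h4 hpV
  · rintro ⟨i, h2, h3, h4, h5⟩
    refine ⟨⟨h2, h3⟩, h4, fun hpV => ?_⟩
    have h5' : K.F p.1 (n p.2) p.2 < ρ p.2 + (c + i) * w p.2 := h5
    rw [hw0 _ hpV] at h5'
    simpa using h5'

/-- Going up to all vertices with type in `V`. -/
theorem lift {n : S → ℤ} {ρ : S → ℝ} (hR : LRel D a U R) (hcl : IsCls K a U n ρ)
    (hVU : V ⊆ U) (hcV : ∀ r ∈ V, ∀ t ∈ U, t ∉ V → D.c r t = 0)
    (hwpos : ∀ t ∈ V, 0 < w t) (hw0 : ∀ t ∉ V, w t = 0)
    (hw : ∀ r ∈ V, 2 * w r ≤ ∑ t ∈ univ.erase r, D.c r t * w t)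
    (hstep : ∀ n' ρ', IsCls K a U n' ρ' → (Neg K a U n' ρ').Nonempty →
      R (Neg K a U n' ρ') (Neg K a U n' ρ' ∪ {p | p ∈ Zer K a U n' ρ' ∧ p.2 ∈ V}))
    (hne : (Neg K a U n ρ).Nonempty) :
    R (Neg K a U n ρ) {p | p ∈ Full D a U ∧ (p.2 ∉ V → p ∈ Neg K a U n ρ)} := by
  -- the sets `L j`
  set L : ℕ → Set (A × S) := fun j => {p | p ∈ Full D a U ∧
      (∀ m > n p.2 + (if p.2 ∈ V then (j : ℤ) else 0), K.F p.1 m p.2 = 0) ∧
        (p.2 ∉ V → K.F p.1 (n p.2) p.2 < ρ p.2)} with hL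
  have hLst : ∀ j, Stable D a U (L j) := by
    intro j h t hp
    obtain ⟨h1, h2, h3⟩ := hp
    refine ⟨h1.1, h1.2, fun h' hh => ⟨⟨coset_trans h1.1 (Par_erase_le D U t hh), h1.2⟩, ?_, ?_⟩⟩
    · intro m hm; show K.F h' m t = 0; rw [F_erase K hh]; exact h2 m hm
    · intro ht; show K.F h' (n t) t < ρ t; rw [F_erase K hh]; exact h3 ht
  have hLmono : Monotone L := by
    intro i j hij p hp
    refine ⟨hp.1, fun m hm => hp.2.1 m ?_, hp.2.2⟩
    have : (i : ℤ) ≤ j := by exact_mod_cast hij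
    split_ifs at hm ⊢ with h
    · linarith
    · exact hm
  have hsub0 : Neg K a U n ρ ⊆ L 0 := by
    rintro p ⟨h1, h2, h3, h4⟩
    refine ⟨⟨h1, h2⟩, fun m hm => h3 m ?_, fun _ => h4⟩
    simpa using hm
  have hwU : ∀ r ∈ U, 2 * w r ≤ ∑ t ∈ univ.erase r, D.c r t * w t := by
    intro r hr
    by_cases hrV : r ∈ V
    · exact hw r hrV
    · rw [hw0 r hrV, mul_zero]
      refine sum_nonneg fun t ht => mul_nonneg (D.c_nonneg r t (ne_of_mem_erase ht).symm) ?_
      by_cases h : t ∈ V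
      · exact (hwpos t h).le
      · exact (hw0 t h).ge
  have hw0U : ∀ t ∉ U, w t = 0 := fun t ht => hw0 t fun h => ht (hVU h)
  -- the first level
  have hR0 : R (Neg K a U n ρ) (L 0) := by
    have h1 := lift_union (c := 0) (n := n) (ρ := ρ) hR hwpos hw0
      (fun c hc => hcl.raise hwU hw0U hc) hstep le_rfl (by simpa using hne)
    simp only [zero_mul, add_zero] at h1
    convert h1 using 1
    ext p
    simp [hL]
  -- one more degree
  obtain ⟨δ, hδ, hgap⟩ := exists_gap K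
  obtain ⟨ε, hε, hεw⟩ : ∃ ε > 0, ∀ t, ε * w t ≤ δ := by
    have hsum : 0 ≤ ∑ t, |w t| := sum_nonneg fun _ _ => abs_nonneg _
    refine ⟨δ / (1 + ∑ t, |w t|), by positivity, fun t => ?_⟩
    have h1 : w t ≤ 1 + ∑ t, |w t| := by
      have := Finset.single_le_sum (f := fun t => |w t|) (fun t _ => abs_nonneg _) (mem_univ t)
      have h2 := le_abs_self (w t)
      have h3 : |w t| ≤ ∑ t, |w t| := this
      linarith
    have h2 : 0 < 1 + ∑ t, |w t| := by linarith
    rw [div_mul_eq_mul_div, div_le_iff₀ h2]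
    exact mul_le_mul_of_nonneg_left h1 hδ.le
  have hRj : ∀ j, (L j).Nonempty → R (L j) (L (j + 1)) := by
    intro j hLne
    set n' : S → ℤ := fun t => if t ∈ V then n t + (j + 1 : ℤ) else n t with hn'
    set ρ' : S → ℝ := fun t => if t ∈ V then 0 else ρ t with hρ'
    have hcls : ∀ c ≥ 0, IsCls K a U n' (fun t => ρ' t + c * w t) := by
      intro c hc
      refine hcl.shift hVU hcV ?_ ?_ ?_ ?_ ?_
      · intro t ht; simp [hn', ht]
      · intro t ht; simp only [hn', ht, if_true]; omega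
      · intro r hr t ht hrt hc
        simp only [hn', hr, ht, if_true]
        rw [hcl.n_const r (hVU hr) t (hVU ht) hrt hc]
      · intro t ht; simp [hρ', ht, hw0 t ht]
      · intro r hr
        have h1 : ∑ t ∈ univ.erase r, D.c r t * (if t ∈ V then ρ' t + c * w t else 0) =
            ∑ t ∈ univ.erase r, c * (D.c r t * w t) := by
          refine sum_congr rfl fun t _ => ?_
          by_cases ht : t ∈ V
          · simp only [ht, if_true, hρ']; ring
          · simp only [ht, if_false, hw0 t ht]; ring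
        rw [h1, ← mul_sum]
        have h2 := mul_le_mul_of_nonneg_left (hw r hr) hc
        simp only [hρ', hr, if_true]
        linarith
    have hLj : Neg K a U n' (fun t => ρ' t + ε * w t) = L j := by
      ext p
      constructor
      · rintro ⟨h1, h2, h3, h4⟩
        refine ⟨⟨h1, h2⟩, ?_, ?_⟩
        · intro m hm
          by_cases hpV : p.2 ∈ V
          · simp only [hpV, if_true] at hm
            have h4' : K.F p.1 (n' p.2) p.2 < ρ' p.2 + ε * w p.2 := h4
            have h0 : K.F p.1 (n' p.2) p.2 = 0 := by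
              rcases hgap p.1 (n' p.2) p.2 with h | h
              · exact h
              · simp only [hρ', hpV, if_true] at h4'
                have := hεw p.2
                linarith
            rcases eq_or_lt_of_le (Int.add_one_le_of_lt hm) with hm' | hm'
            · have : m = n' p.2 := by simp only [hn', hpV, if_true]; rw [← hm']; ring
              rw [this]; exact h0
            · refine h3 m ?_
              simp only [hn', hpV, if_true]
              linarith
          · simp only [hpV, if_false, add_zero] at hm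
            refine h3 m ?_
            simp only [hn', hpV, if_false]
            exact hm
        · intro hpV
          have h4' : K.F p.1 (n' p.2) p.2 < ρ' p.2 + ε * w p.2 := h4
          simpa [hρ', hn', hpV, hw0 _ hpV] using h4'
      · rintro ⟨h1, h2, h3⟩
        refine ⟨h1.1, h1.2, ?_, ?_⟩
        · intro m hm
          refine h2 m ?_
          by_cases hpV : p.2 ∈ V
          · simp only [hn', hpV, if_true] at hm ⊢
            linarith
          · simp only [hn', hpV, if_false] at hm ⊢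
            linarith
        · show K.F p.1 (n' p.2) p.2 < ρ' p.2 + ε * w p.2
          by_cases hpV : p.2 ∈ V
          · have : K.F p.1 (n' p.2) p.2 = 0 := h2 _ (by simp only [hn', hpV, if_true]; linarith)
            rw [this]
            simp only [hρ', hpV, if_true, zero_add]
            exact mul_pos hε (hwpos _ hpV)
          · simpa [hρ', hn', hpV, hw0 _ hpV] using h3 hpV
    have h1 := lift_union (c := ε) (n := n') (ρ := ρ') hR hwpos hw0 hcls hstep hε.le
      (by rw [hLj]; exact hLne)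
    rw [hLj] at h1
    convert h1 using 1
    ext p
    simp only [hL, Set.mem_ofPred_eq]
    refine and_congr_right fun _ => and_congr ?_ ?_
    · by_cases hpV : p.2 ∈ V
      · simp [hn', hpV]
      · simp [hn', hpV]
    · by_cases hpV : p.2 ∈ V
      · simp [hpV]
      · simp [hn', hρ', hpV]
  have hRL : ∀ j, R (Neg K a U n ρ) (L j) := by
    intro j
    induction j with
    | zero => exact hR0
    | succ j ih =>
      exact hR.trans _ _ _ (Neg_stable K _ _ _ _) (hLst _) (hLst _)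
        (hsub0.trans (hLmono (Nat.zero_le j))) (hLmono (Nat.le_succ j)) ih
        (hRj j (hne.mono (hsub0.trans (hLmono (Nat.zero_le j)))))
  have hfin := hR.dir _ L (Neg_stable K _ _ _ _) hLst hLmono
    (fun j => hsub0.trans (hLmono (Nat.zero_le j))) hRL
  convert hfin using 1
  ext p
  simp only [Set.mem_ofPred_eq, Set.mem_iUnion, hL]
  constructor
  · rintro ⟨h1, h2⟩
    by_cases hpV : p.2 ∈ V
    · obtain ⟨N, hN⟩ := K.F_bdd p.1 p.2
      refine ⟨(N - n p.2).toNat, h1, ?_, fun h => absurd hpV h⟩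
      intro m hm
      refine hN m ?_
      simp only [hpV, if_true] at hm
      have := Int.self_le_toNat (N - n p.2)
      linarith
    · obtain ⟨h3, h4, h5, h6⟩ := h2 hpV
      refine ⟨0, h1, ?_, fun _ => h6⟩
      intro m hm
      refine h5 m ?_
      simpa [hpV] using hm
  · rintro ⟨j, h1, h2, h3⟩
    refine ⟨h1, fun hpV => ⟨h1.1, h1.2, ?_, h3 hpV⟩⟩
    intro m hm
    refine h2 m ?_
    simpa [hpV] using hm

end Lift

end Vale.Agent.P203.Morse
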