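import Vale.Agent.P203.Morse.Graph

/-!
# P203, block MORSE: the base simplex and intersections of parabolic subgroups
-/

namespace Vale.Agent.P203.Morse

open Finset

variable {S A : Type} [Fintype S] [DecidableEq S] [Group A] {D : Data S A} {K : Key D}

/-- The class data `n = 0`, `ρ = ε` on `V`. -/
theorem Framed.exists_eps {a : A} (hF : Framed K a) : ∃ ε > 0,
    (∀ V U : Finset S, V ⊆ U → IsCls K a U (fun _ => 0) (fun t => if t ∈ V then ε else 0)) ∧
    ∀ V U : Finset S, V ⊆ U → ∀ p,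
      p ∈ Neg K a U (fun _ => 0) (fun t => if t ∈ V then ε else 0) ↔
        a⁻¹ * p.1 ∈ Par D U ∧ p.2 ∈ V ∧ ∀ m ≥ 0, K.F p.1 m p.2 = 0 := by
  obtain ⟨δ, hδ, hgap⟩ := exists_gap K
  obtain ⟨ε, hε, hεw, hεδ⟩ : ∃ ε > 0, (∀ t, 2 * ε ≤ K.w0 0 t) ∧ ε ≤ δ := by
    rcases isEmpty_or_nonempty S with hS | hS
    · exact ⟨δ, hδ, fun t => hS.elim t, le_rfl⟩
    · obtain ⟨t0, -, ht0⟩ := Finset.exists_min_image (univ : Finset S) (fun t => K.w0 0 t)
        univ_nonempty
      refine ⟨min (K.w0 0 t0 / 2) δ, lt_min (half_pos (hF.w0_zero t0)) hδ, fun t => ?_,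
        min_le_right _ _⟩
      have h1 := ht0 t (mem_univ t)
      have h2 := min_le_left (K.w0 0 t0 / 2) δ
      linarith
  refine ⟨ε, hε, ?_, ?_⟩
  · intro V U hVU
    refine ⟨fun _ _ _ _ _ _ => rfl, fun r _ m hm => hF.w0_pos m hm r,
      fun r _ s _ _ m _ => hF.F_base m s, fun r hr => ?_⟩
    have h1 : 0 ≤ ∑ t ∈ univ.erase r, D.c r t *
        (if t ∈ U then (if t ∈ V then ε else 0) else K.F a 0 t) := by
      refine sum_nonneg fun t ht => mul_nonneg (D.c_nonneg r t (ne_of_mem_erase ht).symm) ?_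
      split_ifs
      · exact hε.le
      · exact le_rfl
      · exact K.F_nonneg _ _ _
    have h2 := hεw r
    have h3 : (if r ∈ V then ε else 0) ≤ ε := by split_ifs <;> linarith
    show 2 * (if r ∈ V then ε else 0) ≤ K.w0 0 r + _
    linarith
  · intro V U hVU p
    constructor
    · rintro ⟨h1, h2, h3, h4⟩
      have h4' : K.F p.1 0 p.2 < if p.2 ∈ V then ε else 0 := h4
      have hV : p.2 ∈ V := by
        by_contra hV
        rw [if_neg hV] at h4'
        exact absurd (K.F_nonneg _ _ _) (not_le.2 h4')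
      rw [if_pos hV] at h4'
      refine ⟨h1, hV, fun m hm => ?_⟩
      rcases hm.lt_or_eq with hm | hm
      · exact h3 m hm
      · rw [← hm]
        exact (hgap p.1 0 p.2).resolve_right (fun h => absurd h4' (not_lt.2 (hεδ.trans h)))
    · rintro ⟨h1, h2, h3⟩
      refine ⟨h1, hVU h2, fun m hm => h3 m (le_of_lt hm), ?_⟩
      show K.F p.1 0 p.2 < if p.2 ∈ V then ε else 0
      rw [if_pos h2, h3 0 le_rfl]
      exact hε

/-- The base simplex is the set of vertices with `H^{≥ 0} = 0`. -/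
theorem base_simplex (hN : Nice K) {a : A} (hF : Framed K a) (U : Finset S) :
    ∀ h t, a⁻¹ * h ∈ Par D U → t ∈ U → (∀ m ≥ 0, K.F h m t = 0) →
      a⁻¹ * h ∈ Par D (U.erase t) := by
  obtain ⟨ε, hε, hcl, hmem⟩ := hF.exists_eps
  induction U using Finset.strongInduction with
  | _ U ih =>
  intro h t hh ht hz
  have hp : (h, t) ∈ Neg K a U (fun _ => 0) (fun t => if t ∈ U then ε else 0) :=
    (hmem U U subset_rfl _).2 ⟨hh, ht, hz⟩
  have hp0 : (a, t) ∈ Neg K a U (fun _ => 0) (fun t => if t ∈ U then ε else 0) :=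
    (hmem U U subset_rfl _).2 ⟨coset_refl a, ht, fun m _ => hF.F_base m t⟩
  have hr := (graph hN U).1 a _ _ (hcl U U subset_rfl) _ hp0 _ hp
  have key : ∀ q, Reach D U (Neg K a U (fun _ => 0) (fun t => if t ∈ U then ε else 0)) (a, t) q →
      a⁻¹ * q.1 ∈ Par D (U.erase q.2) := by
    intro q hq
    induction hq with
    | refl => exact coset_refl a
    | @tail q q' _ h2 ih2 =>
      obtain ⟨h3, h4, h5⟩ := h2
      rcases h5 with ⟨h5, h6⟩ | h5
      · rw [← h5]; exact coset_trans ih2 h6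
      · by_cases hqq : q.2 = q'.2
        · rw [← h5, ← hqq]; exact ih2
        · have h7 := (hmem U U subset_rfl _).1 h4
          have h8 := (hmem U U subset_rfl _).1 h3
          have h9 := ih (U.erase q.2) (erase_ssubset h8.2.1) q'.1 q'.2 (h5 ▸ ih2)
            (mem_erase.2 ⟨Ne.symm hqq, h7.2.1⟩) h7.2.2
          exact Par_mono D (erase_subset_erase _ (erase_subset _ _)) h9
  exact key (h, t) hr

/-- Intersections of maximal parabolic subgroups. -/
theorem Par_inter (hN : Nice K) {a : A} (hF : Framed K a) {U : Finset S} {t t' : S}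
    (ht' : t' ∈ U) (hne : t ≠ t') {h : A} (h1 : a⁻¹ * h ∈ Par D (U.erase t))
    (h2 : a⁻¹ * h ∈ Par D (U.erase t')) : a⁻¹ * h ∈ Par D ((U.erase t).erase t') := by
  refine base_simplex hN hF (U.erase t) h t' h1 (mem_erase.2 ⟨hne.symm, ht'⟩) fun m _ => ?_
  rw [F_erase K h2]
  exact hF.F_base m t'

end Vale.Agent.P203.Morse
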