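import Vale.Agent.P203.Morse.Base

/-!
# P203, block MORSE: sets of cells
-/

namespace Vale.Agent.P203.Morse

open Finset

variable {S A : Type} [Fintype S] [DecidableEq S] [Group A]

section Cells

variable (D : Data S A)

theorem Q_sat (a : A) (U : Finset S) : Sat D (Q D a U) := by
  rintro h T ⟨h1, h2, h3⟩
  exact ⟨h3, fun h' T' hT hh =>
    ⟨coset_trans h1 (Par_mono D h2 hh), hT.trans h2, D.sph_mono hT h3⟩⟩

variable {D}

theorem XX_sat {a : A} {U : Finset S} {X : Set (A × S)} (hX : Stable D a U X) :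
    Sat D (XX D a U X) := by
  rintro h T ⟨h1, h2, h3, t, ht, htT, hx⟩
  have hT : T ⊆ U.erase t := fun s hs => mem_erase.2 ⟨fun h => htT (h ▸ hs), h2 hs⟩
  exact ⟨h3, fun h' T' hT' hh =>
    ⟨coset_trans h1 (Par_mono D h2 hh), hT'.trans h2, D.sph_mono hT' h3, t, ht,
      fun h => htT (hT' h), (hX h t hx).2.2 h' (Par_mono D hT hh)⟩⟩

theorem XX_mono (a : A) (U : Finset S) {X Y : Set (A × S)} (h : X ⊆ Y) :
    XX D a U X ⊆ XX D a U Y := by
  rintro x ⟨h1, h2, h3, t, ht, htT, hx⟩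
  exact ⟨h1, h2, h3, t, ht, htT, h hx⟩

theorem XX_nonempty {a : A} {U : Finset S} {X : Set (A × S)} (hX : Stable D a U X)
    (h : X.Nonempty) : (XX D a U X).Nonempty := by
  obtain ⟨⟨g, t⟩, hp⟩ := h
  obtain ⟨h1, h2, _⟩ := hX g t hp
  exact ⟨(g, ∅), h1, empty_subset _, D.sph_empty, t, h2, notMem_empty t, hp⟩

theorem XX_iUnion {ι : Sort*} (a : A) (U : Finset S) (X : ι → Set (A × S)) :
    XX D a U (⋃ i, X i) = ⋃₀ Set.range fun i => XX D a U (X i) := by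
  ext x
  constructor
  · rintro ⟨h1, h2, h3, t, ht, htT, hx⟩
    obtain ⟨i, hi⟩ := Set.mem_iUnion.1 hx
    exact ⟨_, ⟨i, rfl⟩, h1, h2, h3, t, ht, htT, hi⟩
  · rintro ⟨_, ⟨i, rfl⟩, h1, h2, h3, t, ht, htT, hx⟩
    exact ⟨h1, h2, h3, t, ht, htT, Set.mem_iUnion.2 ⟨i, hx⟩⟩

/-- Adding a vertex. -/
theorem XX_add {a g : A} {U : Finset S} {t : S} (hg : a⁻¹ * g ∈ Par D U) (ht : t ∈ U)
    {X Y : Set (A × S)}
    (hY : ∀ p, p ∈ Y ↔ p ∈ X ∨ (p.2 = t ∧ g⁻¹ * p.1 ∈ Par D (U.erase t))) :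
    XX D a U Y = XX D a U X ∪ Q D g (U.erase t) := by
  ext x
  constructor
  · rintro ⟨h1, h2, h3, s, hs, hsT, hx⟩
    rcases (hY _).1 hx with h | ⟨h, h'⟩
    · left; exact ⟨h1, h2, h3, s, hs, hsT, h⟩
    · right
      simp only at h h'
      subst h
      exact ⟨h', fun r hr => mem_erase.2 ⟨fun h => hsT (h ▸ hr), h2 hr⟩, h3⟩
  · rintro (⟨h1, h2, h3, s, hs, hsT, hx⟩ | ⟨h1, h2, h3⟩)
    · exact ⟨h1, h2, h3, s, hs, hsT, (hY _).2 (Or.inl hx)⟩
    · exact ⟨coset_trans hg (Par_erase_le D U t h1), h2.trans (erase_subset _ _), h3, t, ht,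
        fun h => notMem_erase t U (h2 h), (hY _).2 (Or.inr ⟨rfl, h1⟩)⟩

/-- The intersection of a subcomplex with the star of a new vertex. -/
theorem XX_inter {a g : A} {U : Finset S} {t : S} (hg : a⁻¹ * g ∈ Par D U)
    {X X' : Set (A × S)} (hX : ∀ h, g⁻¹ * h ∈ Par D (U.erase t) → (h, t) ∉ X)
    (hX' : ∀ q, InLink D U (g, t) q → (q ∈ X' ↔ q ∈ X)) :
    XX D a U X ∩ Q D g (U.erase t) = XX D g (U.erase t) X' := by
  ext x
  constructor
  · rintro ⟨⟨_, h2, h3, s, hs, hsT, hx⟩, h4, h5, _⟩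
    have hst : s ≠ t := by
      rintro rfl
      exact hX x.1 h4 hx
    exact ⟨h4, h5, h3, s, mem_erase.2 ⟨hst, hs⟩, hsT,
      (hX' _ ⟨h4, mem_erase.2 ⟨hst, hs⟩⟩).2 hx⟩
  · rintro ⟨h1, h2, h3, s, hs, hsT, hx⟩
    exact ⟨⟨coset_trans hg (Par_erase_le D U t h1), h2.trans (erase_subset _ _), h3, s,
      mem_of_mem_erase hs, hsT, (hX' _ ⟨h1, hs⟩).1 hx⟩, h1, h2, h3⟩

variable (D)

/-- An abstract relation between saturated sets of cells. -/
structure CRel (G : GoodTheory D) (R : Set (A × Finset S) → Set (A × Finset S) → Prop) :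
    Prop where
  refl : ∀ X, Sat D X → R X X
  trans : ∀ X Y Z, Sat D X → Sat D Y → Sat D Z → X ⊆ Y → Y ⊆ Z → R X Y → R Y Z → R X Z
  attach : ∀ X Y, Sat D X → Sat D Y → G.W Y → G.W (X ∩ Y) → R X (X ∪ Y)
  dir : ∀ P, ∀ X : Set (Set (A × Finset S)), X.Nonempty → DirectedOn (· ⊆ ·) X →
    Sat D P → (∀ x ∈ X, Sat D x ∧ P ⊆ x) → (∀ x ∈ X, R P x) → R P (⋃₀ X)

variable {D} (G : GoodTheory D)

theorem crel_E : CRel D G G.E :=
  ⟨G.E_refl, G.E_trans, G.E_attach, G.E_dir⟩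

theorem crel_W : CRel D G (fun X Y => G.W X → G.W Y) := by
  refine ⟨fun _ _ h => h, fun _ _ _ _ _ _ _ _ h1 h2 h => h2 (h1 h), ?_, ?_⟩
  · intro X Y hX hY h1 h2 h
    exact G.union X Y hX hY h h1 h2
  · intro P X hne hdir _ hX h hP
    exact G.dir X hne hdir (fun x hx => (hX x hx).1) fun x hx => h x hx hP

theorem CRel.lrel {R : Set (A × Finset S) → Set (A × Finset S) → Prop} (hR : CRel D G R)
    (a : A) (U : Finset S) : LRel D a U (fun X Y => R (XX D a U X) (XX D a U Y)) := by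
  refine ⟨fun X hX => hR.refl _ (XX_sat hX), ?_, ?_⟩
  · intro X Y Z hX hY hZ h1 h2 h3 h4
    exact hR.trans _ _ _ (XX_sat hX) (XX_sat hY) (XX_sat hZ) (XX_mono a U h1) (XX_mono a U h2)
      h3 h4
  · intro X Y hX hY hmono hsub h
    rw [XX_iUnion]
    refine hR.dir _ _ ⟨_, 0, rfl⟩ ?_ (XX_sat hX) ?_ ?_
    · rintro _ ⟨i, rfl⟩ _ ⟨j, rfl⟩
      exact ⟨_, ⟨max i j, rfl⟩, XX_mono a U (hmono (le_max_left _ _)),
        XX_mono a U (hmono (le_max_right _ _))⟩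
    · rintro _ ⟨i, rfl⟩
      exact ⟨XX_sat (hY i), XX_mono a U (hsub i)⟩
    · rintro _ ⟨i, rfl⟩
      exact h i

end Cells

section Claims

variable {D : Data S A} (G : GoodTheory D) (K : Key D)

/-- CLAIM: a nonempty class set is good. -/
def P1 (U : Finset S) : Prop :=
  ∀ a n ρ, IsCls K a U n ρ → (Neg K a U n ρ).Nonempty → G.W (XX D a U (Neg K a U n ρ))

/-- CLAIM0: a nonempty class set together with the zeros with given types is good. -/
def P3 (U : Finset S) : Prop :=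
  ∀ a n ρ, IsCls K a U n ρ → (Neg K a U n ρ).Nonempty → ∀ T : Finset S,
    G.W (XX D a U (Neg K a U n ρ ∪ {p | p ∈ Zer K a U n ρ ∧ p.2 ∈ T}))

/-- The full complex is good. -/
def P4 (U : Finset S) : Prop := ∀ a, G.W (Q D a U)

variable {G K}

theorem add_type {a : A} {U : Finset S} {n : S → ℤ} {ρ : S → ℝ} (hcl : IsCls K a U n ρ)
    (hne : (Neg K a U n ρ).Nonempty) (hPZ : PZ K U) (hP3 : ∀ t ∈ U, P3 G K (U.erase t))
    (hP4 : ∀ t ∈ U, P4 G (U.erase t))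
    {R : Set (A × Finset S) → Set (A × Finset S) → Prop} (hR : CRel D G R)
    (T : Finset S) (t : S) (htT : t ∉ T) :
    R (XX D a U (Neg K a U n ρ ∪ {p | p ∈ Zer K a U n ρ ∧ p.2 ∈ T}))
      (XX D a U (Neg K a U n ρ ∪ {p | p ∈ Zer K a U n ρ ∧ p.2 ∈ insert t T})) := by
  classical
  have hst : ∀ T : Finset S,
      Stable D a U (Neg K a U n ρ ∪ {p | p ∈ Zer K a U n ρ ∧ p.2 ∈ T}) := fun T =>
    (Neg_stable K _ _ _ _).union ((Zer_stable K _ _ _ _).sep (· ∈ T))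
  by_cases htU : t ∈ U
  swap
  · have : Neg K a U n ρ ∪ {p | p ∈ Zer K a U n ρ ∧ p.2 ∈ insert t T} =
        Neg K a U n ρ ∪ {p | p ∈ Zer K a U n ρ ∧ p.2 ∈ T} := by
      congr 1
      ext p
      constructor
      · rintro ⟨h1, h2⟩
        rcases mem_insert.1 h2 with h | h
        · exact absurd (h ▸ h1.2.1) htU
        · exact ⟨h1, h⟩
      · rintro ⟨h1, h2⟩
        exact ⟨h1, mem_insert_of_mem h2⟩
    rw [this]
    exact hR.refl _ (XX_sat (hst T))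
  set Y : Finset A → Set (A × S) := fun Φ =>
    (Neg K a U n ρ ∪ {p | p ∈ Zer K a U n ρ ∧ p.2 ∈ T}) ∪
      {p | p ∈ Zer K a U n ρ ∧ p.2 = t ∧ ∃ g ∈ Φ, g⁻¹ * p.1 ∈ Par D (U.erase t)} with hY
  have hYst : ∀ Φ, Stable D a U (Y Φ) := by
    intro Φ
    refine (hst T).union ?_
    rintro h s ⟨h1, h2, g, hg, h3⟩
    obtain ⟨h4, h5, h6⟩ := Zer_stable K a U n ρ h s h1
    simp only at h2 h3
    subst h2
    exact ⟨h4, h5, fun h' hh => ⟨h6 h' hh, rfl, g, hg, coset_trans h3 hh⟩⟩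
  have hYmono : ∀ {Φ Ψ : Finset A}, Φ ⊆ Ψ → Y Φ ⊆ Y Ψ := by
    rintro Φ Ψ hΦ p (hp | ⟨h1, h2, g, hg, h3⟩)
    · exact Or.inl hp
    · exact Or.inr ⟨h1, h2, g, hΦ hg, h3⟩
  have hsub : ∀ Φ, Neg K a U n ρ ∪ {p | p ∈ Zer K a U n ρ ∧ p.2 ∈ T} ⊆ Y Φ := fun Φ p hp =>
    Or.inl hp
  have key : ∀ Φ, R (XX D a U (Neg K a U n ρ ∪ {p | p ∈ Zer K a U n ρ ∧ p.2 ∈ T}))
      (XX D a U (Y Φ)) := by
    intro Φ
    induction Φ using Finset.induction_on with
    | empty =>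
      have : Y ∅ = Neg K a U n ρ ∪ {p | p ∈ Zer K a U n ρ ∧ p.2 ∈ T} := by
        simp [hY]
      rw [this]
      exact hR.refl _ (XX_sat (hst T))
    | insert g Φ hgΦ ih =>
      by_cases hg : (g, t) ∈ Zer K a U n ρ ∧ ¬ ∃ g' ∈ Φ, g'⁻¹ * g ∈ Par D (U.erase t)
      · obtain ⟨hgZ, hgn⟩ := hg
        have h1 : ∀ p, p ∈ Y (insert g Φ) ↔
            p ∈ Y Φ ∨ (p.2 = t ∧ g⁻¹ * p.1 ∈ Par D (U.erase t)) := by
          intro p
          constructor
          · rintro (h | ⟨h1, h2, g', hg', h3⟩)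
            · exact Or.inl (Or.inl h)
            · rcases mem_insert.1 hg' with rfl | hg'
              · exact Or.inr ⟨h2, h3⟩
              · exact Or.inl (Or.inr ⟨h1, h2, g', hg', h3⟩)
          · rintro ((h | ⟨h1, h2, g', hg', h3⟩) | ⟨h1, h2⟩)
            · exact Or.inl h
            · exact Or.inr ⟨h1, h2, g', mem_insert_of_mem hg', h3⟩
            · refine Or.inr ⟨?_, h1, g, mem_insert_self _ _, h2⟩
              obtain ⟨p1, p2⟩ := p
              simp only at h1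
              subst h1
              exact Zer_move K hgZ h2
        have h2 := XX_add (D := D) hgZ.1 htU h1
        have hcl' := hcl.link_zer hgZ
        obtain ⟨r, hr, hlr⟩ := hPZ a n ρ hcl hne (g, t) hgZ
        have hne' : (Neg K g (U.erase t) n ρ).Nonempty :=
          ⟨r, (Neg_link K n ρ hgZ.1 r).2 ⟨hr, hlr⟩⟩
        have h3 := hP3 t htU g n ρ hcl' hne' T
        have h4 : XX D a U (Y Φ) ∩ Q D g (U.erase t) =
            XX D g (U.erase t) (Neg K g (U.erase t) n ρ ∪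
              {p | p ∈ Zer K g (U.erase t) n ρ ∧ p.2 ∈ T}) := by
          refine XX_inter hgZ.1 ?_ ?_
          · rintro h hh ((h1 | ⟨_, h2⟩) | ⟨_, _, g', hg', h3⟩)
            · exact not_neg_of_zer K (Zer_move K hgZ hh) h1
            · exact htT h2
            · exact hgn ⟨g', hg', coset_trans h3 (coset_symm hh)⟩
          · rintro q hq
            constructor
            · rintro (h | ⟨h, h'⟩)
              · exact Or.inl (Or.inl ((Neg_link K n ρ hgZ.1 q).1 h).1)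
              · exact Or.inl (Or.inr ⟨((Zer_link K n ρ hgZ.1 q).1 h).1, h'⟩)
            · rintro ((h | ⟨h, h'⟩) | ⟨_, h2, _⟩)
              · exact Or.inl ((Neg_link K n ρ hgZ.1 q).2 ⟨h, hq⟩)
              · exact Or.inr ⟨(Zer_link K n ρ hgZ.1 q).2 ⟨h, hq⟩, h'⟩
              · exact absurd h2 (mem_erase.1 hq.2).1
        have h5 := hR.attach (XX D a U (Y Φ)) (Q D g (U.erase t)) (XX_sat (hYst Φ))
          (Q_sat D g _) (hP4 t htU g) (by rw [h4]; exact h3)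
        rw [← h2] at h5
        exact hR.trans _ _ _ (XX_sat (hst T)) (XX_sat (hYst Φ)) (XX_sat (hYst _))
          (XX_mono a U (hsub Φ)) (XX_mono a U (hYmono (subset_insert _ _))) ih h5
      · have : Y (insert g Φ) = Y Φ := by
          refine Set.Subset.antisymm ?_ (hYmono (subset_insert _ _))
          rintro p (h | ⟨h1, h2, g', hg', h3⟩)
          · exact Or.inl h
          · rcases mem_insert.1 hg' with rfl | hg'
            · obtain ⟨p1, p2⟩ := p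
              simp only at h2
              subst h2
              have hZ : (g', p2) ∈ Zer K a U n ρ := Zer_move K h1 (coset_symm h3)
              have : ∃ g'' ∈ Φ, g''⁻¹ * g' ∈ Par D (U.erase p2) := by
                by_contra hc
                exact hg ⟨hZ, hc⟩
              obtain ⟨g'', hg'', h4⟩ := this
              exact Or.inr ⟨h1, rfl, g'', hg'', coset_trans h4 h3⟩
            · exact Or.inr ⟨h1, h2, g', hg', h3⟩
        rw [this]
        exact ih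
  have hfin : Neg K a U n ρ ∪ {p | p ∈ Zer K a U n ρ ∧ p.2 ∈ insert t T} = ⋃ Φ, Y Φ := by
    ext p
    constructor
    · rintro (h | ⟨h1, h2⟩)
      · exact Set.mem_iUnion.2 ⟨∅, Or.inl (Or.inl h)⟩
      · rcases mem_insert.1 h2 with h | h
        · exact Set.mem_iUnion.2 ⟨{p.1}, Or.inr ⟨h1, h, p.1, mem_singleton_self _, coset_refl _⟩⟩
        · exact Set.mem_iUnion.2 ⟨∅, Or.inl (Or.inr ⟨h1, h⟩)⟩
    · intro h
      obtain ⟨Φ, hΦ⟩ := Set.mem_iUnion.1 h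
      rcases hΦ with (h | ⟨h1, h2⟩) | ⟨h1, h2, _⟩
      · exact Or.inl h
      · exact Or.inr ⟨h1, mem_insert_of_mem h2⟩
      · exact Or.inr ⟨h1, mem_insert.2 (Or.inl h2)⟩
  rw [hfin, XX_iUnion]
  refine hR.dir _ _ ⟨_, ∅, rfl⟩ ?_ (XX_sat (hst T)) ?_ ?_
  · rintro _ ⟨Φ, rfl⟩ _ ⟨Ψ, rfl⟩
    exact ⟨_, ⟨Φ ∪ Ψ, rfl⟩, XX_mono a U (hYmono subset_union_left),
      XX_mono a U (hYmono subset_union_right)⟩
  · rintro _ ⟨Φ, rfl⟩
    exact ⟨XX_sat (hYst Φ), XX_mono a U (hsub Φ)⟩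
  · rintro _ ⟨Φ, rfl⟩
    exact key Φ

/-- Adding all the zeros with types in `T`. -/
theorem add_types {a : A} {U : Finset S} {n : S → ℤ} {ρ : S → ℝ} (hcl : IsCls K a U n ρ)
    (hne : (Neg K a U n ρ).Nonempty) (hPZ : PZ K U) (hP3 : ∀ t ∈ U, P3 G K (U.erase t))
    (hP4 : ∀ t ∈ U, P4 G (U.erase t))
    {R : Set (A × Finset S) → Set (A × Finset S) → Prop} (hR : CRel D G R)
    (T : Finset S) :
    R (XX D a U (Neg K a U n ρ))
      (XX D a U (Neg K a U n ρ ∪ {p | p ∈ Zer K a U n ρ ∧ p.2 ∈ T})) := by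
  have hst : ∀ T : Finset S,
      Stable D a U (Neg K a U n ρ ∪ {p | p ∈ Zer K a U n ρ ∧ p.2 ∈ T}) := fun T =>
    (Neg_stable K _ _ _ _).union ((Zer_stable K _ _ _ _).sep (· ∈ T))
  induction T using Finset.induction_on with
  | empty =>
    have : Neg K a U n ρ ∪ {p | p ∈ Zer K a U n ρ ∧ p.2 ∈ (∅ : Finset S)} = Neg K a U n ρ := by
      simp
    rw [this]
    exact hR.refl _ (XX_sat (Neg_stable K _ _ _ _))
  | insert t T htT ih =>
    refine hR.trans _ _ _ (XX_sat (Neg_stable K _ _ _ _)) (XX_sat (hst T)) (XX_sat (hst _))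
      (XX_mono a U Set.subset_union_left) (XX_mono a U ?_) ih
      (add_type hcl hne hPZ hP3 hP4 hR T t htT)
    rintro p (h | ⟨h1, h2⟩)
    · exact Or.inl h
    · exact Or.inr ⟨h1, mem_insert_of_mem h2⟩

/-- CLAIM0 from CLAIM. -/
theorem P3_of_P1 {U : Finset S} (hP1 : P1 G K U) (hPZ : PZ K U)
    (hP3 : ∀ t ∈ U, P3 G K (U.erase t)) (hP4 : ∀ t ∈ U, P4 G (U.erase t)) : P3 G K U := by
  intro a n ρ hcl hne T
  exact add_types hcl hne hPZ hP3 hP4 (crel_W G) T (hP1 a n ρ hcl hne)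

end Claims

end Vale.Agent.P203.Morse
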