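import Vale.Agent.P203.Morse.Lift

/-!
# P203, block MORSE: (Conn) and (Z) for all `U`
-/

namespace Vale.Agent.P203.Morse

open Finset

variable {S A : Type} [Fintype S] [DecidableEq S] [Group A]

section Rel

variable (D : Data S A)

/-- Connectedness in `Y` of two elements of `X` implies connectedness in `X`. -/
def NoMerge (U : Finset S) (X Y : Set (A × S)) : Prop :=
  ∀ p ∈ X, ∀ q ∈ X, Reach D U Y p q → Reach D U X p q

theorem reach_iUnion {U : Finset S} {Y : ℕ → Set (A × S)} (hY : Monotone Y) {p q : A × S}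
    (h : Reach D U (⋃ i, Y i) p q) : ∃ i, Reach D U (Y i) p q := by
  induction h with
  | refl => exact ⟨0, Relation.ReflTransGen.refl⟩
  | tail _ h2 ih =>
    obtain ⟨i, hi⟩ := ih
    obtain ⟨h3, h4, h5⟩ := h2
    obtain ⟨j, hj⟩ := Set.mem_iUnion.1 h3
    obtain ⟨k, hk⟩ := Set.mem_iUnion.1 h4
    refine ⟨max i (max j k), (Reach.mono D subset_rfl (hY (le_max_left _ _)) hi).tail
      ⟨hY ((le_max_left _ _).trans (le_max_right _ _)) hj,
        hY ((le_max_right _ _).trans (le_max_right _ _)) hk, h5⟩⟩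

theorem NoMerge.lrel (a : A) (U : Finset S) : LRel D a U (NoMerge D U) := by
  refine ⟨?_, ?_, ?_⟩
  · intro X _ p _ q _ h; exact h
  · intro X Y Z _ _ _ h1 h2 h3 h4 p hp q hq h
    exact h3 p hp q hq (h4 p (h1 hp) q (h1 hq) h)
  · intro X Y _ _ hY hXY h p hp q hq hr
    obtain ⟨i, hi⟩ := reach_iUnion D hY hr
    exact h i p hp q hq hi

end Rel

section Step

variable {D : Data S A} {K : Key D}

variable {a : A} {U : Finset S} {n : S → ℤ} {ρ : S → ℝ}

theorem IsCls.link_zer (hcl : IsCls K a U n ρ) {q : A × S} (hq : q ∈ Zer K a U n ρ) :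
    IsCls K q.1 (U.erase q.2) n ρ :=
  hcl.link hq.1 hq.2.1 hq.2.2.1 hq.2.2.2.ge

/-- Negative vertices in the link of a zero vertex are connected. -/
theorem link_reach (hcl : IsCls K a U n ρ) (hPC : ∀ t ∈ U, PC K (U.erase t)) {q r r' : A × S}
    (hq : q ∈ Zer K a U n ρ) (hr : r ∈ Neg K a U n ρ) (hr' : r' ∈ Neg K a U n ρ)
    (h : InLink D U q r) (h' : InLink D U q r') : Reach D U (Neg K a U n ρ) r r' := by
  have h1 := hPC q.2 hq.2.1 q.1 n ρ (hcl.link_zer hq) r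
    ((Neg_link K n ρ hq.1 r).2 ⟨hr, h⟩) r' ((Neg_link K n ρ hq.1 r').2 ⟨hr', h'⟩)
  exact h1.mono D (erase_subset _ _) fun x hx => ((Neg_link K n ρ hq.1 x).1 hx).1

/-- The invariant. -/
def Inv (K : Key D) (a : A) (U : Finset S) (n : S → ℤ) (ρ : S → ℝ) (p0 q : A × S) : Prop :=
  (q ∈ Neg K a U n ρ ∧ Reach D U (Neg K a U n ρ) p0 q) ∨
  (q ∈ Zer K a U n ρ ∧ (∃ r ∈ Neg K a U n ρ, InLink D U q r) ∧
    ∀ r ∈ Neg K a U n ρ, InLink D U q r → Reach D U (Neg K a U n ρ) p0 r)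

theorem Inv.step (hcl : IsCls K a U n ρ) (hPC : ∀ t ∈ U, PC K (U.erase t))
    (hPZ : ∀ t ∈ U, PZ K (U.erase t)) {p0 q q' : A × S} (hq : Inv K a U n ρ p0 q)
    (h : Step D U (Neg K a U n ρ ∪ Zer K a U n ρ) q q') : Inv K a U n ρ p0 q' := by
  obtain ⟨hqX, hqX', h⟩ := h
  obtain ⟨g, t⟩ := q
  obtain ⟨g', t'⟩ := q'
  rcases h with ⟨h1, h2⟩ | h1
  · -- same vertex
    simp only at h1 h2
    subst h1
    rcases hq with ⟨hN, hR⟩ | ⟨hZ, ⟨r, hr, hl⟩, hR⟩
    · left
      have hN' := Neg_move K hN h2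
      exact ⟨hN', hR.tail ⟨hN, hN', Or.inl ⟨rfl, h2⟩⟩⟩
    · right
      refine ⟨Zer_move K hZ h2, ⟨r, hr, coset_trans (coset_symm h2) hl.1, hl.2⟩, ?_⟩
      intro r' hr' hl'
      exact hR r' hr' ⟨coset_trans h2 hl'.1, hl'.2⟩
  · -- same chamber
    simp only at h1
    subst h1
    by_cases htt : t = t'
    · subst htt; exact hq
    rcases hq with ⟨hN, hR⟩ | ⟨hZ, ⟨r, hr, hl⟩, hR⟩
    · rcases hqX' with hN' | hZ'
      · left; exact ⟨hN', hR.tail ⟨hN, hN', Or.inr rfl⟩⟩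
      · right
        have hl : InLink D U (g, t') (g, t) := ⟨coset_refl g, mem_erase.2 ⟨htt, hN.2.1⟩⟩
        refine ⟨hZ', ⟨_, hN, hl⟩, ?_⟩
        intro r hr hlr
        exact hR.trans D (link_reach hcl hPC hZ' hN hr hl hlr)
    · rcases hqX' with hN' | hZ'
      · left
        exact ⟨hN', hR _ hN' ⟨coset_refl g, mem_erase.2 ⟨Ne.symm htt, hN'.2.1⟩⟩⟩
      · right
        have hl' : InLink D U (g, t) (g, t') := ⟨coset_refl g, mem_erase.2 ⟨Ne.symm htt, hZ'.2.1⟩⟩
        obtain ⟨s, hs, hls⟩ := hPZ t hZ.2.1 g n ρ (hcl.link_zer hZ)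
          ⟨r, (Neg_link K n ρ hZ.1 r).2 ⟨hr, hl⟩⟩ (g, t')
          ((Zer_link K n ρ hZ.1 (g, t')).2 ⟨hZ', hl'⟩)
        have hs' := (Neg_link K n ρ hZ.1 s).1 hs
        have hls' : InLink D U (g, t') s := by
          refine ⟨Par_mono D (erase_subset_erase _ (erase_subset _ _)) hls.1, ?_⟩
          exact mem_erase.2 ⟨(mem_erase.1 hls.2).1, mem_of_mem_erase (mem_of_mem_erase hls.2)⟩
        refine ⟨hZ', ⟨s, hs'.1, hls'⟩, ?_⟩
        intro r' hr' hlr'
        exact (hR s hs'.1 hs'.2).trans D (link_reach hcl hPC hZ' hs'.1 hr' hls' hlr')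

theorem Inv.of_reach (hcl : IsCls K a U n ρ) (hPC : ∀ t ∈ U, PC K (U.erase t))
    (hPZ : ∀ t ∈ U, PZ K (U.erase t)) {p0 q : A × S} (hp0 : p0 ∈ Neg K a U n ρ)
    (h : Reach D U (Neg K a U n ρ ∪ Zer K a U n ρ) p0 q) : Inv K a U n ρ p0 q := by
  induction h with
  | refl => exact Or.inl ⟨hp0, Relation.ReflTransGen.refl⟩
  | tail _ h2 ih => exact ih.step hcl hPC hPZ h2

/-- Adding all the zeros does not merge components. -/
theorem noMerge_step (hcl : IsCls K a U n ρ) (hPC : ∀ t ∈ U, PC K (U.erase t))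
    (hPZ : ∀ t ∈ U, PZ K (U.erase t)) :
    NoMerge D U (Neg K a U n ρ) (Neg K a U n ρ ∪ Zer K a U n ρ) := by
  intro p hp q hq h
  rcases Inv.of_reach hcl hPC hPZ hp h with h1 | h1
  · exact h1.2
  · exact (not_neg_of_zer K h1.1 hq).elim

theorem good_of_reach (hcl : IsCls K a U n ρ) (hPC : ∀ t ∈ U, PC K (U.erase t))
    (hPZ : ∀ t ∈ U, PZ K (U.erase t)) {p q : A × S} (hp : p ∈ Neg K a U n ρ)
    (hq : q ∈ Zer K a U n ρ) (h : Reach D U (Neg K a U n ρ ∪ Zer K a U n ρ) p q) :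
    ∃ r ∈ Neg K a U n ρ, InLink D U q r := by
  rcases Inv.of_reach hcl hPC hPZ hp h with h1 | h1
  · exact (not_neg_of_zer K hq h1.1).elim
  · exact h1.2.1

end Step

section Main

variable {D : Data S A} {K : Key D}

/-- The Vinberg vector, extended by zero. -/
theorem exists_vin {U : Finset S} (hU : ¬ D.Sph U) (hc : GConn D U) :
    ∃ w : S → ℝ, (∀ t ∈ U, 0 < w t) ∧ (∀ t ∉ U, w t = 0) ∧
      ∀ r ∈ U, 2 * w r ≤ ∑ t ∈ univ.erase r, D.c r t * w t := by
  obtain ⟨w, hw1, hw2⟩ := D.vinVec U hU hc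
  refine ⟨fun t => if t ∈ U then w t else 0, fun t ht => by simp [ht, hw1 t ht],
    fun t ht => by simp [ht], fun r hr => ?_⟩
  have h1 : ∑ t ∈ univ.erase r, D.c r t * (if t ∈ U then w t else 0) =
      ∑ t ∈ U.erase r, D.c r t * w t := by
    rw [← Finset.sum_subset (erase_subset_erase r (subset_univ U))]
    · refine sum_congr rfl fun t ht => ?_
      simp [mem_of_mem_erase ht]
    · intro t ht ht'
      have : t ∉ U := fun h => ht' (mem_erase.2 ⟨ne_of_mem_erase ht, h⟩)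
      simp [this]
  rw [h1]
  simpa [hr] using hw2 r hr

theorem two_le_card {U : Finset S} (hU : ¬ D.Sph U) : 2 ≤ U.card := by
  by_contra h
  have h' : U.card ≤ 1 := by omega
  rcases Nat.le_one_iff_eq_zero_or_eq_one.1 h' with h0 | h1
  · exact hU (card_eq_zero.1 h0 ▸ D.sph_empty)
  · obtain ⟨x, rfl⟩ := card_eq_one.1 h1
    exact hU (D.sph_singleton x)

theorem PC_PZ_nonsph {U : Finset S} (hU : ¬ D.Sph U) (hc : GConn D U)
    (hPC : ∀ t ∈ U, PC K (U.erase t)) (hPZ : ∀ t ∈ U, PZ K (U.erase t)) :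
    PC K U ∧ PZ K U := by
  obtain ⟨w, hwpos, hw0, hw⟩ := exists_vin hU hc
  have hfull : ∀ a n ρ, IsCls K a U n ρ → (Neg K a U n ρ).Nonempty →
      NoMerge D U (Neg K a U n ρ) (Full D a U) := by
    intro a n ρ hcl hne
    have h1 := lift (V := U) (w := w) (NoMerge.lrel D a U) hcl subset_rfl
      (fun r _ t ht ht' => absurd ht ht') hwpos hw0 hw (fun n' ρ' hcl' _ => by
        have h2 := noMerge_step hcl' hPC hPZ
        convert h2 using 2
        ext p
        exact ⟨fun h => h.1, fun h => ⟨h, h.2.1⟩⟩) hne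
    convert h1 using 1
    ext p
    exact ⟨fun h => ⟨h, fun h' => absurd h.2 h'⟩, fun h => h.1⟩
  have hsubF : ∀ a n ρ, Neg K a U n ρ ⊆ Full D a U := fun a n ρ p hp => ⟨hp.1, hp.2.1⟩
  constructor
  · intro a n ρ hcl p hp q hq
    exact hfull a n ρ hcl ⟨p, hp⟩ p hp q hq
      (Full_connected D a U (two_le_card hU) p (hsubF _ _ _ hp) q (hsubF _ _ _ hq))
  · intro a n ρ hcl hne p hp
    obtain ⟨p0, hp0⟩ := hne
    obtain ⟨J, hJ⟩ := exists_jumps (K := K) (V := U) n ρ hwpos 1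
    obtain ⟨x, hx0, _, _, hx⟩ := next_level (K := K) (a := a) (U := U) (V := U) hwpos hw0 J hJ
      (c := 0) one_pos
    have hx' : Neg K a U n ρ ∪ Zer K a U n ρ = Neg K a U n (fun t => ρ t + x * w t) := by
      rw [← hx]
      simp only [zero_mul, add_zero]
      congr 1
      ext q
      exact ⟨fun h => ⟨h, h.2.1⟩, fun h => h.1⟩
    have hcl' : IsCls K a U n (fun t => ρ t + x * w t) :=
      hcl.raise hw hw0 hx0.le
    have hp0' : p0 ∈ Neg K a U n (fun t => ρ t + x * w t) := hx' ▸ Or.inl hp0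
    have hp' : p ∈ Neg K a U n (fun t => ρ t + x * w t) := hx' ▸ Or.inr hp
    have h1 := hfull a n _ hcl' ⟨p0, hp0'⟩ p0 hp0' p hp'
      (Full_connected D a U (two_le_card hU) p0 (hsubF _ _ _ hp0') p (hsubF _ _ _ hp'))
    rw [← hx'] at h1
    exact good_of_reach hcl hPC hPZ hp0 hp h1

/-- (Conn) and (Z) for reducible `U`. -/
theorem PC_PZ_join {U V : Finset S} (hV : V ⊆ U) (hc : ∀ r ∈ V, ∀ t ∈ U \ V, D.c r t = 0)
    (hPC1 : PC K V) (hPC2 : PC K (U \ V)) (hPZ1 : PZ K V) (hPZ2 : PZ K (U \ V)) :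
    PC K U ∧ PZ K U := by
  -- a symmetric formulation
  have key : ∀ V V' : Finset S, V ∪ V' = U → Disjoint V V' → (∀ r ∈ V, ∀ t ∈ V', D.c r t = 0) →
      PC K V → PZ K V → ∀ a n ρ, IsCls K a U n ρ →
      (∀ h t, (h, t) ∈ Neg K a U n ρ → t ∈ V → ∀ h' t', (h', t') ∈ Neg K a U n ρ →
        Reach D U (Neg K a U n ρ) (h, t) (h', t')) ∧
      ((Neg K a U n ρ).Nonempty → ∀ h t, (h, t) ∈ Zer K a U n ρ → t ∈ V →
        ∃ q ∈ Neg K a U n ρ, InLink D U (h, t) q) := by
    intro V V' hUV hdisj hc hPC hPZ a n ρ hcl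
    have hVU : V ⊆ U := hUV ▸ subset_union_left
    have hV'U : V' ⊆ U := hUV ▸ subset_union_right
    have hcc : ∀ r ∈ V, ∀ t ∈ V', r ≠ t ∧ D.c r t = 0 := fun r hr t ht =>
      ⟨fun h => Finset.disjoint_left.1 hdisj hr (h ▸ ht), hc r hr t ht⟩
    have hclV : IsCls K a V n ρ := by
      refine hcl.restrict hVU fun r hr t ht htV => hc r hr t ?_
      rw [← hUV] at ht
      exact (mem_union.1 ht).resolve_left htV
    have hV'er : ∀ t ∈ V, V' ⊆ U.erase t := fun t ht x hx =>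
      mem_erase.2 ⟨fun h => Finset.disjoint_left.1 hdisj ht (h ▸ hx), hV'U hx⟩
    have hVer : ∀ t ∈ V', V ⊆ U.erase t := fun t ht x hx =>
      mem_erase.2 ⟨fun h => Finset.disjoint_left.1 hdisj hx (h ▸ ht), hVU hx⟩
    have hdec : ∀ h, a⁻¹ * h ∈ Par D U → ∃ x ∈ Par D V, ∃ y ∈ Par D V', h = a * x * y := by
      intro h hh
      obtain ⟨x, hx, y, hy, hxy⟩ := Par_decomp D hcc (hUV.symm ▸ hh)
      refine ⟨x, hx, y, hy, ?_⟩
      rw [mul_assoc, ← hxy, mul_inv_cancel_left]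
    have hNV : Neg K a V n ρ ⊆ Neg K a U n ρ := by
      rintro p ⟨h1, h2, h3⟩
      exact ⟨Par_mono D hVU h1, hVU h2, h3⟩
    -- moving a negative vertex of type in `V` into `a A_V`
    have hmove : ∀ x y t, x ∈ Par D V → y ∈ Par D V' → t ∈ V →
        (a * x * y, t) ∈ Neg K a U n ρ → (a * x, t) ∈ Neg K a V n ρ := by
      intro x y t hx hy ht hp
      have h1 : (a * x * y)⁻¹ * (a * x) ∈ Par D (U.erase t) := by
        have : (a * x * y)⁻¹ * (a * x) = y⁻¹ := by group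
        rw [this]
        exact Par_mono D (hV'er t ht) (inv_mem hy)
      obtain ⟨_, _, h4, h5⟩ := Neg_move K hp h1
      exact ⟨by simpa using hx, ht, h4, h5⟩
    constructor
    · intro h t hp ht h' t' hp'
      obtain ⟨x, hx, y, hy, rfl⟩ := hdec h hp.1
      obtain ⟨x', hx', y', hy', rfl⟩ := hdec h' hp'.1
      have ht'U : t' ∈ V ∪ V' := hUV.symm ▸ hp'.2.1
      rcases mem_union.1 ht'U with ht' | ht'
      · -- both in `V`
        have h1 := hmove x y t hx hy ht hp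
        have h2 := hmove x' y' t' hx' hy' ht' hp'
        have h3 := hPC a n ρ hclV _ h1 _ h2
        have h4 : Reach D U (Neg K a U n ρ) (a * x * y, t) (a * x, t) :=
          Relation.ReflTransGen.single ⟨hp, hNV h1, Or.inl ⟨rfl, by
            have : (a * x * y)⁻¹ * (a * x) = y⁻¹ := by group
            show (a * x * y)⁻¹ * (a * x) ∈ _
            rw [this]
            exact Par_mono D (hV'er t ht) (inv_mem hy)⟩⟩
        have h5 : Reach D U (Neg K a U n ρ) (a * x', t') (a * x' * y', t') :=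
          Relation.ReflTransGen.single ⟨hNV h2, hp', Or.inl ⟨rfl, by
            have : (a * x')⁻¹ * (a * x' * y') = y' := by group
            show (a * x')⁻¹ * (a * x' * y') ∈ _
            rw [this]
            exact Par_mono D (hV'er t' ht') hy'⟩⟩
        exact (h4.trans D (h3.mono D hVU hNV)).trans D h5
      · -- `t ∈ V`, `t' ∈ V'`
        have h1 : (a * x * y)⁻¹ * (a * x * y') ∈ Par D (U.erase t) := by
          have : (a * x * y)⁻¹ * (a * x * y') = y⁻¹ * y' := by group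
          rw [this]
          exact Par_mono D (hV'er t ht) (mul_mem (inv_mem hy) hy')
        have h2 : (a * x' * y')⁻¹ * (a * x * y') ∈ Par D (U.erase t') := by
          have e1 : (a * x' * y')⁻¹ * (a * x * y') = y'⁻¹ * (x'⁻¹ * x * y') := by group
          have e2 := Par_commute D hcc (mul_mem (inv_mem hx') hx) hy'
          rw [e1, e2]
          have e3 : y'⁻¹ * (y' * (x'⁻¹ * x)) = x'⁻¹ * x := by group
          rw [e3]
          exact Par_mono D (hVer t' ht') (mul_mem (inv_mem hx') hx)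
        have h3 := Neg_move K hp h1
        have h4 := Neg_move K hp' h2
        have s1 : Step D U (Neg K a U n ρ) (a * x * y, t) (a * x * y', t) :=
          ⟨hp, h3, Or.inl ⟨rfl, h1⟩⟩
        have s2 : Step D U (Neg K a U n ρ) (a * x * y', t) (a * x * y', t') :=
          ⟨h3, h4, Or.inr rfl⟩
        have s3 : Step D U (Neg K a U n ρ) (a * x' * y', t') (a * x * y', t') :=
          ⟨hp', h4, Or.inl ⟨rfl, h2⟩⟩
        exact ((Relation.ReflTransGen.single s1).tail s2).tail (s3.symm D)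
    · rintro ⟨⟨h', t'⟩, hp'⟩ h t hp ht
      obtain ⟨x, hx, y, hy, rfl⟩ := hdec h hp.1
      obtain ⟨x', hx', y', hy', rfl⟩ := hdec h' hp'.1
      have ht'U : t' ∈ V ∪ V' := hUV.symm ▸ hp'.2.1
      rcases mem_union.1 ht'U with ht' | ht'
      · -- both in `V`
        have h1 : (a * x * y)⁻¹ * (a * x) ∈ Par D (U.erase t) := by
          have : (a * x * y)⁻¹ * (a * x) = y⁻¹ := by group
          rw [this]
          exact Par_mono D (hV'er t ht) (inv_mem hy)
        have hpz : (a * x, t) ∈ Zer K a V n ρ := by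
          obtain ⟨_, _, h4, h5⟩ := Zer_move K hp h1
          exact ⟨by simpa using hx, ht, h4, h5⟩
        obtain ⟨q, hq, hl⟩ := hPZ a n ρ hclV ⟨_, hmove x' y' t' hx' hy' ht' hp'⟩ _ hpz
        refine ⟨q, hNV hq, ?_, mem_erase.2 ⟨(mem_erase.1 hl.2).1, hVU (mem_of_mem_erase hl.2)⟩⟩
        exact coset_trans h1 (Par_mono D (erase_subset_erase _ hVU) hl.1)
      · have h2 : (a * x' * y')⁻¹ * (a * x * y') ∈ Par D (U.erase t') := by
          have e1 : (a * x' * y')⁻¹ * (a * x * y') = y'⁻¹ * (x'⁻¹ * x * y') := by group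
          have e2 := Par_commute D hcc (mul_mem (inv_mem hx') hx) hy'
          rw [e1, e2]
          have e3 : y'⁻¹ * (y' * (x'⁻¹ * x)) = x'⁻¹ * x := by group
          rw [e3]
          exact Par_mono D (hVer t' ht') (mul_mem (inv_mem hx') hx)
        refine ⟨_, Neg_move K hp' h2, ?_, ?_⟩
        · have : (a * x * y)⁻¹ * (a * x * y') = y⁻¹ * y' := by group
          show (a * x * y)⁻¹ * (a * x * y') ∈ _
          rw [this]
          exact Par_mono D (hV'er t ht) (mul_mem (inv_mem hy) hy')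
        · exact hV'er t ht ht'
  have hVd : V ∪ (U \ V) = U := union_sdiff_of_subset hV
  have hVd' : (U \ V) ∪ V = U := sdiff_union_of_subset hV
  have hc' : ∀ r ∈ U \ V, ∀ t ∈ V, D.c r t = 0 := fun r hr t ht => by
    rw [D.c_symm]; exact hc t ht r hr
  have hsp : ∀ t ∈ U, t ∈ V ∨ t ∈ U \ V := fun t ht => by
    by_cases h : t ∈ V
    · exact Or.inl h
    · exact Or.inr (mem_sdiff.2 ⟨ht, h⟩)
  constructor
  · rintro a n ρ hcl ⟨h, t⟩ hp ⟨h', t'⟩ hp'
    rcases hsp t hp.2.1 with ht | ht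
    · exact (key V (U \ V) hVd disjoint_sdiff hc hPC1 hPZ1 a n ρ hcl).1 h t hp ht h' t' hp'
    · exact (key (U \ V) V hVd' sdiff_disjoint hc' hPC2 hPZ2 a n ρ hcl).1 h t hp ht h' t' hp'
  · rintro a n ρ hcl hne ⟨h, t⟩ hp
    rcases hsp t hp.2.1 with ht | ht
    · exact (key V (U \ V) hVd disjoint_sdiff hc hPC1 hPZ1 a n ρ hcl).2 hne h t hp ht
    · exact (key (U \ V) V hVd' sdiff_disjoint hc' hPC2 hPZ2 a n ρ hcl).2 hne h t hp ht

/-- **(Conn) and (Z) for all `U`**. -/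
theorem graph (hN : Nice K) (U : Finset S) : PC K U ∧ PZ K U := by
  induction U using Finset.strongInduction with
  | _ U ih =>
  by_cases hc : GConn D U
  · by_cases hs : D.Sph U
    · exact ⟨hN.conn U hs hc, hN.zero U hs hc⟩
    · exact PC_PZ_nonsph hs hc (fun t ht => (ih _ (erase_ssubset ht)).1)
        (fun t ht => (ih _ (erase_ssubset ht)).2)
  · unfold GConn at hc
    push Not at hc
    obtain ⟨V, hVU, hVne, hVneU, hV⟩ := hc
    have h1 : V ⊂ U := lt_of_le_of_ne hVU hVneU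
    have h2 : U \ V ⊂ U := by
      refine Finset.ssubset_iff_of_subset sdiff_subset |>.2 ?_
      obtain ⟨x, hx⟩ := hVne
      exact ⟨x, hVU hx, fun h => (mem_sdiff.1 h).2 hx⟩
    exact PC_PZ_join hVU hV (ih _ h1).1 (ih _ h2).1 (ih _ h1).2 (ih _ h2).2

end Main

end Vale.Agent.P203.Morse
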